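import Vale.Agent.P141.H305.Parts

/-!
# P141, line (A), top, version M: active set of small density, gap `t ^ (2 - e0) √s r ^ e0`

* `CE1M`: `CE1n` for centre data with an active set of density at most `L t ^ (a - 2) √s`;
* `CE1L`: `CE1n` for centre data with one low vector edge (height² at most `L t ^ b`);
* `ClsM`: class data with activity: at an active label point the majorant `U.1` is at least
  `√κ`, so that on alive squares the columns of `u` and `v` are small;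
* `PartM T`: the price of a functional of class data, gap `lam = t ^ (2 - e0) √s r ^ e0`;
* `CE1q`: the price of one class; `ce1q_of_parts : PartM TI → PartM TZ → PartM TF → CE1q`.
-/

namespace Vale.Agent.P141.H305

open Finset
open Vale.Agent.P141.PL (Pt)
open Vale.Agent.P141.PL.H315 (iv Tri A2 avg)
open Vale.Agent.P141.H48 (US ES cst)
open Vale.Agent.P141.H579 (cosA nrt)
open Vale.Agent.P141.H572 (cosF)
open Vale.Agent.P141.H136 (comp)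
open Vale.Agent.P141.H971 (Cen)

noncomputable section

open scoped Classical

/-- **CE1, normalised data, active set** of density at most `L t ^ (a - 2) √s`. -/
def CE1M : Prop :=
  ∀ a : ℝ, 0 < a → a ≤ 1 →
  ∃ gam c1 : ℝ, 0 < gam ∧ 0 < c1 ∧ ∀ c : ℝ, 0 ≤ c → c ≤ c1 →
  ∀ Kt e cP L : ℝ, 0 < Kt → 1 ≤ e → 0 ≤ cP → 1 ≤ L → ∃ C : ℝ, 0 ≤ C ∧
  ∀ t : ℝ, 0 < t → t ≤ 1 → ∀ (n : ℕ) (ez : ℝ) (F1 F2 F3 : ℕ → Pt → ℝ),
    US n (Kt * t ^ (1 - c)) e cP F1 → US n (Kt * t ^ (1 - c)) e cP F3 → ES n ez cP F2 →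
  ∀ o : ℤ, o = 1 ∨ o = -1 → ∀ K ≤ n, ∀ (x : Pt)
    (V : Type) [NormedAddCommGroup V] [InnerProductSpace ℝ V] [FiniteDimensional ℝ V]
    (s : ℝ) (g : ℤ → ℤ → ℝ) (u v : ℤ → ℤ → V) (X : Finset ℤ), 0 < s →
    Cen (iv K x.2.1) (iv K x.2.2) (iv K x.1) 1 √s 1 (L * t ^ (2 - c) * √s) g u v →
    (∀ z, z ∉ X → ∀ y, u z y = 0) → (∀ z, z ∉ X → ∀ y, v z y = 0) →
    (avg (iv K x.1) fun z => if z ∈ X then (1 : ℝ) else 0) ≤ L * (t ^ (a - 2) * √s) →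
    cosF o K x (comp (fun p => g p.1 p.2) u v) (fun k _ => F1 k) (fun k _ => F2 k)
        (fun k _ => F3 k) ≤
      C * (t ^ (1 + gam) * s ^ (5 / 4 : ℝ) * √ez * 8 ^ K)

/-- **CE1, normalised data, one low vector edge.** -/
def CE1L : Prop :=
  ∀ b : ℝ, 0 < b → b ≤ 1 →
  ∃ gam c1 : ℝ, 0 < gam ∧ 0 < c1 ∧ ∀ c : ℝ, 0 ≤ c → c ≤ c1 →
  ∀ Kt e cP L : ℝ, 0 < Kt → 1 ≤ e → 0 ≤ cP → 1 ≤ L → ∃ C : ℝ, 0 ≤ C ∧
  ∀ t : ℝ, 0 < t → t ≤ 1 → ∀ (n : ℕ) (ez : ℝ) (F1 F2 F3 : ℕ → Pt → ℝ),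
    US n (Kt * t ^ (1 - c)) e cP F1 → US n (Kt * t ^ (1 - c)) e cP F3 → ES n ez cP F2 →
  ∀ o : ℤ, o = 1 ∨ o = -1 → ∀ K ≤ n, ∀ (x : Pt)
    (V : Type) [NormedAddCommGroup V] [InnerProductSpace ℝ V] [FiniteDimensional ℝ V]
    (s : ℝ) (g : ℤ → ℤ → ℝ) (u v : ℤ → ℤ → V), 0 < s →
    Cen (iv K x.2.1) (iv K x.2.2) (iv K x.1) 1 √s 1 (L * t ^ (2 - c) * √s) g u v →
    ((∀ z ∈ iv K x.1, ∀ y ∈ iv K x.2.1, ‖u z y‖ ^ 2 ≤ L * t ^ b) ∨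
      ∀ z ∈ iv K x.1, ∀ y ∈ iv K x.2.2, ‖v z y‖ ^ 2 ≤ L * t ^ b) →
    cosF o K x (comp (fun p => g p.1 p.2) u v) (fun k _ => F1 k) (fun k _ => F2 k)
        (fun k _ => F3 k) ≤
      C * (t ^ (1 + gam) * s ^ (5 / 4 : ℝ) * √ez * 8 ^ K)

/-- class data with activity `κ` -/
structure ClsM {ι : Type*} [Fintype ι] (K : ℕ) (x : Pt) (s r P κ : ℝ) (U : Tri)
    (g : ℤ → ℤ → ℝ) (u v : ℤ → ℤ → ι → ℝ) : Prop extends Cls K x s r P U g u v where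
  /-- at an active label point the majorant of `u` is large on the whole row -/
  act : ∀ z ∈ iv K x.1, (∀ y ∈ iv K x.2.1, κ ≤ U.1 (z, y) ^ 2) ∨
    ((∀ y, u z y = 0) ∧ ∀ y, v z y = 0)
  /-- the row class is not empty by its heights -/
  r_le : r = 1 ∨ r * √s ≤ 2

/-- the activity of the class `r` -/
def kapM (L t a s r : ℝ) : ℝ := L⁻¹ * min 1 (t ^ (2 - a) * √s * r)

/-- **The price of one class.** -/
def CE1q : Prop :=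
  ∀ a : ℝ, 0 < a → a ≤ 1 →
  ∃ gam c1 d0 del : ℝ, 0 < gam ∧ 0 < c1 ∧ 0 < d0 ∧ 0 < del ∧ ∀ c : ℝ, 0 ≤ c → c ≤ c1 →
  ∀ d : ℝ, 0 < d → d ≤ d0 →
  ∀ Kt e cP L : ℝ, 0 < Kt → 1 ≤ e → 0 ≤ cP → 1 ≤ L → ∃ C : ℝ, 0 ≤ C ∧
  ∀ t : ℝ, 0 < t → t ≤ 1 → ∀ (n : ℕ) (ez : ℝ) (F1 F2 F3 : ℕ → Pt → ℝ),
    US n (Kt * t ^ (1 - c)) e cP F1 → US n (Kt * t ^ (1 - c)) e cP F3 → ES n ez cP F2 →
  ∀ o : ℤ, o = 1 ∨ o = -1 → ∀ K ≤ n, ∀ (x : Pt) (ι : Type) [Fintype ι] [DecidableEq ι]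
    (s r : ℝ) (U : Tri) (g : ℤ → ℤ → ℝ) (u v : ℤ → ℤ → ι → ℝ), 0 < s → 1 ≤ r →
    ClsM K x s r (L * t ^ (2 - c) * √s) (kapM L t a s r) U g u v →
    cosA (fun k z => ¬ cst (t ^ (-d)) U K k z) o K x (cmp g u v)
        (fun k _ => F1 k) (fun k _ => F2 k) (fun k _ => F3 k) ≤
      C * (t ^ (1 + gam) * s ^ (5 / 4 : ℝ) * √ez * 8 ^ K) * r ^ (-del)

/-- **The price of a functional of class data**, gap `t ^ (2 - e0) √s r ^ e0`, every small `e0`. -/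
def PartM (T : Fun3) : Prop :=
  ∀ a : ℝ, 0 < a → a ≤ 1 →
  ∃ es : ℝ, 0 < es ∧ ∀ e0 : ℝ, 0 < e0 → e0 ≤ es →
  ∃ gam c1 d0 del : ℝ, 0 < gam ∧ 0 < c1 ∧ 0 < d0 ∧ 0 < del ∧ ∀ c : ℝ, 0 ≤ c → c ≤ c1 →
  ∀ d : ℝ, 0 < d → d ≤ d0 →
  ∀ Kt e cP L : ℝ, 0 < Kt → 1 ≤ e → 0 ≤ cP → 1 ≤ L → ∃ C : ℝ, 0 ≤ C ∧
  ∀ t : ℝ, 0 < t → t ≤ 1 → ∀ (n : ℕ) (ez : ℝ) (F1 F2 F3 : ℕ → Pt → ℝ),
    US n (Kt * t ^ (1 - c)) e cP F1 → US n (Kt * t ^ (1 - c)) e cP F3 → ES n ez cP F2 →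
  ∀ o : ℤ, o = 1 ∨ o = -1 → ∀ K ≤ n, ∀ (x : Pt) (ι : Type) [Fintype ι] [DecidableEq ι]
    (s r : ℝ) (U : Tri) (g : ℤ → ℤ → ℝ) (u v : ℤ → ℤ → ι → ℝ), 0 < s → 1 ≤ r →
    ClsM K x s r (L * t ^ (2 - c) * √s) (kapM L t a s r) U g u v →
    T ι (t ^ (2 - e0) * √s * r ^ e0) o (fun k z => ¬ cst (t ^ (-d)) U K k z) K x
        (fun p => g p.1 p.2) u v F1 F2 F3 ≤
      C * (t ^ (1 + gam) * s ^ (5 / 4 : ℝ) * √ez * 8 ^ K) * r ^ (-del)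

/-- **Two functionals together.** -/
theorem PartM.add {T1 T2 T : Fun3} (H1 : PartM T1) (H2 : PartM T2)
    (h : ∀ (ι : Type) [Fintype ι] [DecidableEq ι] (l : ℝ) (_ : 0 < l) (o : ℤ) (A : ℕ → Pt → Prop)
      (K : ℕ) (x : Pt) (g : ℤ × ℤ → ℝ) (u v : ℤ → ℤ → ι → ℝ) (F1 F2 F3 : ℕ → Pt → ℝ),
      T ι l o A K x g u v F1 F2 F3 ≤ T1 ι l o A K x g u v F1 F2 F3 +
        T2 ι l o A K x g u v F1 F2 F3) : PartM T := by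
  intro a ha ha1
  obtain ⟨cs1, hcs1, H1⟩ := H1 a ha ha1
  obtain ⟨cs2, hcs2, H2⟩ := H2 a ha ha1
  refine ⟨min cs1 cs2, lt_min hcs1 hcs2, fun c0 hc0 hc0' => ?_⟩
  obtain ⟨g1, c1, d1, l1, hg1, hc1, hd1, hl1, H1⟩ := H1 c0 hc0 (hc0'.trans (min_le_left _ _))
  obtain ⟨g2, c2, d2, l2, hg2, hc2, hd2, hl2, H2⟩ := H2 c0 hc0 (hc0'.trans (min_le_right _ _))
  refine ⟨min g1 g2, min c1 c2, min d1 d2, min l1 l2, lt_min hg1 hg2, lt_min hc1 hc2,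
    lt_min hd1 hd2, lt_min hl1 hl2, fun c hc hcc d hd hdd Kt e cP L hK he hcP hL => ?_⟩
  obtain ⟨C1, hC1, H1⟩ := H1 c hc (hcc.trans (min_le_left _ _)) d hd (hdd.trans (min_le_left _ _))
    Kt e cP L hK he hcP hL
  obtain ⟨C2, hC2, H2⟩ := H2 c hc (hcc.trans (min_le_right _ _)) d hd
    (hdd.trans (min_le_right _ _)) Kt e cP L hK he hcP hL
  refine ⟨C1 + C2, by positivity, ?_⟩
  intro t ht ht1 n ez F1 F2 F3 h1 h3 h2 o ho K hKn x ι _ _ s r U g u v hs hr hcls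
  have hr0 : 0 < r := by linarith
  have hl : 0 < t ^ (2 - c0) * √s * r ^ c0 :=
    mul_pos (mul_pos (Real.rpow_pos_of_pos ht _) (Real.sqrt_pos.2 hs)) (Real.rpow_pos_of_pos hr0 _)
  have k1 := H1 t ht ht1 n ez F1 F2 F3 h1 h3 h2 o ho K hKn x ι s r U g u v hs hr hcls
  have k2 := H2 t ht ht1 n ez F1 F2 F3 h1 h3 h2 o ho K hKn x ι s r U g u v hs hr hcls
  have m1 := k1.trans (price_mono ht ht1 hr hs.le (Real.sqrt_nonneg ez) hC1 (min_le_left g1 g2)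
    (min_le_left l1 l2) K)
  have m2 := k2.trans (price_mono ht ht1 hr hs.le (Real.sqrt_nonneg ez) hC2 (min_le_right g1 g2)
    (min_le_right l1 l2) K)
  refine (h ι _ hl o _ K x _ u v F1 F2 F3).trans ((add_le_add m1 m2).trans (le_of_eq ?_))
  ring

/-- **The three parts.** -/
theorem ce1q_of_parts (HI : PartM TI) (HZ : PartM TZ) (HF : PartM TF) : CE1q := by
  have H := HI.add (PartM.add (T := fun ι _ _ l o A K x g u v F1 F2 F3 =>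
    TZ ι l o A K x g u v F1 F2 F3 + TF ι l o A K x g u v F1 F2 F3) HZ HF
    fun ι _ _ l _ o A K x g u v F1 F2 F3 => le_rfl) (T := TA)
    fun ι _ _ l hl o A K x g u v F1 F2 F3 => cosA_three ι l hl o A K x g u v F1 F2 F3
  intro a ha ha1
  obtain ⟨cs, hcs, H⟩ := H a ha ha1
  obtain ⟨gam, c1, d0, del, hgam, hc1, hd0, hdel, H⟩ := H cs hcs le_rfl
  refine ⟨gam, c1, d0, del, hgam, hc1, hd0, hdel, fun c hc hcc d hd hdd Kt e cP L hK he hcP hL => ?_⟩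
  obtain ⟨C, hC, H⟩ := H c hc hcc d hd hdd Kt e cP L hK he hcP hL
  refine ⟨C, hC, ?_⟩
  intro t ht ht1 n ez F1 F2 F3 h1 h3 h2 o ho K hKn x ι _ _ s r U g u v hs hr hcls
  exact H t ht ht1 n ez F1 F2 F3 h1 h3 h2 o ho K hKn x ι s r U g u v hs hr hcls

end

end Vale.Agent.P141.H305
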