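import Vale.Agent.P141.H305.TopDefs
import Vale.Agent.P141.H498.EnAll

/-!
# P141, line (A), top: one generation of stopping at a small power of `t`

`ce1n_of_a`: `CE1a → H650.CE1n`.
-/

namespace Vale.Agent.P141.H305

open Finset
open Vale.Agent.P141.PL (Pt)
open Vale.Agent.P141.PL.H315 (iv Tri A2 avg avg_nonneg cube3 card_cube3 atm)
open Vale.Agent.P141.H48 (US ES cst Pos2 prE cG cG_nonneg Lam0 one_le_Lam0 genSt)
open Vale.Agent.P141.H579 (cosA nrt gR rest_comp)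
open Vale.Agent.P141.H136 (comp)
open Vale.Agent.P141.H971 (Cen)
open Vale.Agent.P141.H922 (n2 n4 nN pw3 wP n2_nonneg n4_nonneg nN_nonneg wP_nonneg n2_e12 n2_e13
  n2_e23 n4_e12 n4_e13 n4_e23 nN_e12 nN_e13 nN_e23)
open Vale.Agent.P141.H834 (gf)
open Vale.Agent.P141.H498 (cEng cEng_nonneg pos2_asm)

noncomputable section

open scoped Classical

/-- the fourth norm of a function of height one -/
theorem n4_le_of {Q : Finset (ℤ × ℤ)} {f : ℤ × ℤ → ℝ} {s : ℝ} (hs : 0 ≤ s)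
    (h1 : ∀ p ∈ Q, |f p| ≤ 1) (h2 : n2 Q f ≤ √s) : n4 Q f ≤ √√s := by
  have h3 : (avg Q fun p => f p ^ 4) ≤ s := by
    have h4 : (avg Q fun p => f p ^ 2) ≤ s := by
      have h5 := pow_le_pow_left₀ (n2_nonneg Q f) h2 2
      rwa [H922.n2_sq, Real.sq_sqrt hs] at h5
    refine le_trans ?_ h4
    unfold Vale.Agent.P141.PL.H315.avg
    refine mul_le_mul_of_nonneg_left (sum_le_sum fun p hp => ?_) (by positivity)
    have h5 : f p ^ 2 ≤ 1 := by
      have := h1 p hp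
      rw [← sq_abs]
      exact pow_le_one₀ (abs_nonneg _) this
    nlinarith [sq_nonneg (f p)]
  unfold H922.n4
  exact Real.sqrt_le_sqrt (Real.sqrt_le_sqrt h3)

theorem nN_le_of {Q : Finset (ℤ × ℤ)} {f : ℤ × ℤ → ℝ} {s : ℝ} (hs : 0 ≤ s)
    (h1 : ∀ p ∈ Q, |f p| ≤ 1) (h2 : n2 Q f ≤ √s) : nN Q f ≤ s ^ (3 / 8 : ℝ) := by
  have h4 := n4_le_of hs h1 h2
  unfold H922.nN
  have h5 : n2 Q f * n4 Q f ≤ √s * √√s := mul_le_mul h2 h4 (n4_nonneg _ _) (Real.sqrt_nonneg _)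
  refine (Real.sqrt_le_sqrt h5).trans (le_of_eq ?_)
  rw [Real.sqrt_eq_rpow, Real.sqrt_eq_rpow, Real.sqrt_eq_rpow, ← Real.rpow_mul hs]
  rcases hs.eq_or_lt with rfl | hs
  · rw [Real.zero_rpow (by norm_num), Real.zero_rpow (by norm_num), Real.zero_rpow (by norm_num)]
    norm_num
  · rw [← Real.rpow_add hs, ← Real.rpow_mul hs.le]
    norm_num

/-- the pair weight of the norms of centre data -/
theorem wP_cen {V : Type*} [NormedAddCommGroup V] [InnerProductSpace ℝ V] {K : ℕ} {x : Pt}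
    {s W : ℝ} (hs : 0 < s) {g : ℤ → ℤ → ℝ} {u v : ℤ → ℤ → V}
    (H : Cen (iv K x.2.1) (iv K x.2.2) (iv K x.1) 1 √s 1 W g u v) :
    wP 1 (cube3 K x) (nrt (fun p => g p.1 p.2) u v) ≤ 3 * (8 ^ K * s ^ (5 / 4 : ℝ)) := by
  have hss : √s ^ 2 = s := Real.sq_sqrt hs.le
  -- heights
  have u1 : ∀ p ∈ iv K x.1 ×ˢ iv K x.2.1, |(‖u p.1 p.2‖ : ℝ)| ≤ 1 := by
    intro p hp
    rw [mem_product] at hp
    have h := H.u_le p.1 hp.1 p.2 hp.2
    rw [one_pow, one_mul] at h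
    rw [abs_norm]
    nlinarith [norm_nonneg (u p.1 p.2)]
  have v1 : ∀ p ∈ iv K x.1 ×ˢ iv K x.2.2, |(‖v p.1 p.2‖ : ℝ)| ≤ 1 := by
    intro p hp
    rw [mem_product] at hp
    have h := H.v_le p.1 hp.1 p.2 hp.2
    rw [one_pow, one_mul] at h
    rw [abs_norm]
    nlinarith [norm_nonneg (v p.1 p.2)]
  have g1 : ∀ p ∈ iv K x.2.1 ×ˢ iv K x.2.2, |g p.1 p.2| ≤ 1 := by
    intro p hp
    rw [mem_product] at hp
    exact H.a_le p.1 hp.1 p.2 hp.2
  -- masses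
  have u2 : n2 (iv K x.1 ×ˢ iv K x.2.1) (fun p => (‖u p.1 p.2‖ : ℝ)) ≤ √s := by
    unfold H922.n2
    refine Real.sqrt_le_sqrt ?_
    rw [H550.avg_prod]
    have h := H.u_en
    rwa [one_mul, hss] at h
  have v2 : n2 (iv K x.1 ×ˢ iv K x.2.2) (fun p => (‖v p.1 p.2‖ : ℝ)) ≤ √s := by
    unfold H922.n2
    refine Real.sqrt_le_sqrt ?_
    rw [H550.avg_prod]
    have h := H.v_en
    rwa [one_mul, hss] at h
  have g2 : n2 (iv K x.2.1 ×ˢ iv K x.2.2) (fun p => g p.1 p.2) ≤ √s := H.a_n2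
  have un := nN_le_of hs.le u1 u2
  have vn := nN_le_of hs.le v1 v2
  have gn := nN_le_of hs.le g1 g2
  have key : s ^ (3 / 8 : ℝ) * s ^ (3 / 8 : ℝ) * √s = s ^ (5 / 4 : ℝ) := by
    rw [Real.sqrt_eq_rpow, ← Real.rpow_add hs, ← Real.rpow_add hs]
    norm_num
  have h3 : ∀ a b c : ℝ, 0 ≤ a → 0 ≤ b → 0 ≤ c → a ≤ s ^ (3 / 8 : ℝ) → b ≤ s ^ (3 / 8 : ℝ) →
      c ≤ √s → a * b * c ≤ s ^ (5 / 4 : ℝ) := by
    intro a b c ha hb hc h1 h2 h3
    rw [← key]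
    exact mul_le_mul (mul_le_mul h1 h2 hb (by positivity)) h3 hc (by positivity)
  unfold H922.wP H922.pw3 nrt
  rw [card_cube3, nN_e12, nN_e13, nN_e23, n2_e12, n2_e13, n2_e23]
  have k1 := h3 _ _ _ (nN_nonneg _ _) (nN_nonneg _ _) (n2_nonneg _ _) un vn g2
  have k2 := h3 _ _ _ (nN_nonneg _ _) (nN_nonneg _ _) (n2_nonneg _ _) un gn v2
  have k3 := h3 _ _ _ (nN_nonneg _ _) (nN_nonneg _ _) (n2_nonneg _ _) vn gn u2
  have h8 : (0 : ℝ) ≤ 8 ^ K := by positivity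
  push_cast
  calc 1 * (8 : ℝ) ^ K * _ ≤ 1 * (8 : ℝ) ^ K * (s ^ (5 / 4 : ℝ) + s ^ (5 / 4 : ℝ) +
        s ^ (5 / 4 : ℝ)) := mul_le_mul_of_nonneg_left (add_le_add (add_le_add k1 k2) k3)
          (by positivity)
    _ = _ := by ring

/-- the natural price in powers of `t` -/
theorem prE_le {ε Kt t c e ez : ℝ} (hKt : 0 < Kt) (ht : 0 < t) (ht1 : t ≤ 1) (hc : 0 ≤ c)
    (hε : 0 < ε) (he : 0 ≤ e) :
    prE ε (Kt * t ^ (1 - c)) (Kt * t ^ (1 - c)) e e ez ≤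
      (Kt * Kt) ^ (1 / 2 - ε) * (e * e) ^ (1 / 4 + ε / 2) * (t ^ (1 - c - 2 * ε) * √ez) := by
  unfold prE
  have h1 : Kt * t ^ (1 - c) * (Kt * t ^ (1 - c)) = (Kt * Kt) * t ^ (2 * (1 - c)) := by
    rw [show (2 : ℝ) * (1 - c) = (1 - c) + (1 - c) by ring, Real.rpow_add ht]
    ring
  rw [h1, Real.mul_rpow (by positivity) (by positivity), ← Real.rpow_mul ht.le,
    ← Real.sqrt_eq_rpow]
  have h2 : t ^ (2 * (1 - c) * (1 / 2 - ε)) ≤ t ^ (1 - c - 2 * ε) := by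
    refine Real.rpow_le_rpow_of_exponent_ge ht ht1 ?_
    nlinarith [mul_nonneg hc hε.le]
  have h3 : 0 ≤ (Kt * Kt) ^ (1 / 2 - ε) := by positivity
  have h4 : 0 ≤ (e * e) ^ (1 / 4 + ε / 2) := Real.rpow_nonneg (by positivity) _
  calc (Kt * Kt) ^ (1 / 2 - ε) * t ^ (2 * (1 - c) * (1 / 2 - ε)) * (e * e) ^ (1 / 4 + ε / 2) * √ez
      ≤ (Kt * Kt) ^ (1 / 2 - ε) * t ^ (1 - c - 2 * ε) * (e * e) ^ (1 / 4 + ε / 2) * √ez := by
        gcongr
    _ = _ := by ring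

/-- **From the nodes which are not stopped to all nodes.** -/
theorem ce1n_of_a (H : CE1a) : H650.CE1n := by
  obtain ⟨gam, c1, d0, hgam, hc1, hd0, H⟩ := H
  set d : ℝ := min d0 1 with hd
  have hdp : 0 < d := lt_min hd0 one_pos
  have hd1 : d ≤ 1 := min_le_right _ _
  set ε : ℝ := d / 1920 with hεd
  have hε : 0 < ε := by positivity
  have hε' : ε ≤ 1 / 4 := by rw [hεd]; linarith
  refine ⟨min gam (d / 480), min c1 (d / 960), lt_min hgam (by positivity),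
    lt_min hc1 (by positivity), fun c hc hcc Kt e cP L hK he hcP hL => ?_⟩
  obtain ⟨C, hC, H⟩ := H c hc (hcc.trans (min_le_left _ _)) d hdp (min_le_left _ _) Kt e cP L hK he
    hcP hL
  set A : ℝ := 2 * cG Lam0 cP 240000 cEng ε with hA
  have hA0 : 0 ≤ A := by
    have := cG_nonneg (Λ := Lam0) (cP := cP) (K0 := 240000) (C := cEng) hcP (by norm_num)
      cEng_nonneg hε
    positivity
  have hPos : Pos2 A ε cP := pos2_asm one_le_Lam0 genSt hε hε' hcP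
  set B : ℝ := (Kt * Kt) ^ (1 / 2 - ε) * (e * e) ^ (1 / 4 + ε / 2) with hB
  have hB0 : 0 ≤ B := by
    have h3 : 0 ≤ (Kt * Kt) ^ (1 / 2 - ε) := by positivity
    have h4 : 0 ≤ (e * e) ^ (1 / 4 + ε / 2) := Real.rpow_nonneg (by positivity) _
    positivity
  refine ⟨C + 6 * (A * B) * 1153 ^ 3 * 3, by positivity, ?_⟩
  intro t ht ht1 n ez F1 F2 F3 h1 h3 h2 o ho K hKn x V _ _ _ s g u v hs hcen
  have hez : 0 ≤ ez := h2.1
  have main := H t ht ht1 n ez F1 F2 F3 h1 h3 h2 o ho K hKn x V s g u v hs hcen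
  -- the threshold
  set l : ℝ := t ^ (-d / 4) with hl
  have hl1 : 1 ≤ l := Real.one_le_rpow_of_pos_of_le_one_of_nonpos ht ht1 (by linarith)
  have hl4 : l ^ 4 = t ^ (-d) := by
    rw [hl, ← Real.rpow_natCast (t ^ (-d / 4)) 4, ← Real.rpow_mul ht.le]
    congr 1
    push_cast
    ring
  set P : ℝ := A * prE ε (Kt * t ^ (1 - c)) (Kt * t ^ (1 - c)) e e ez with hP
  have hprE := prE_le (Kt := Kt) (e := e) (ez := ez) hK ht ht1 hc hε (by linarith)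
  have hprE0 : 0 ≤ prE ε (Kt * t ^ (1 - c)) (Kt * t ^ (1 - c)) e e ez := by
    unfold prE
    have h3 : 0 ≤ (Kt * t ^ (1 - c) * (Kt * t ^ (1 - c))) ^ (1 / 2 - ε) := by positivity
    have h4 : 0 ≤ (e * e) ^ (1 / 4 + ε / 2) := Real.rpow_nonneg (by positivity) _
    positivity
  have hP0 : 0 ≤ P := mul_nonneg hA0 hprE0
  have rest := rest_comp hl1 hP0 o K x (fun p => g p.1 p.2) u v (fun k _ => F1 k)
    (fun k _ => F2 k) (fun k _ => F3 k) fun K' hK' x' _ a => by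
      have h := hPos n _ _ e ez e F1 F2 F3 h1 h3 h2 o ho K' (by omega) x' a
      exact h
  rw [hl4] at rest
  refine rest.trans ?_
  have hw := wP_cen hs hcen
  have hw0 : 0 ≤ wP 1 (cube3 K x) (nrt (fun p => g p.1 p.2) u v) := wP_nonneg zero_le_one _ _
  -- the power of the gain
  have hg : gR l = 1153 ^ 3 * t ^ (d / 240) := by
    unfold gR
    rw [hl, ← Real.rpow_mul ht.le]
    congr 2
    ring
  have e1 : t ^ (1 + min gam (d / 480)) ≥ t ^ (1 + gam) :=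
    Real.rpow_le_rpow_of_exponent_ge ht ht1 (by linarith [min_le_left gam (d / 480)])
  have e2 : t ^ (1 - c - 2 * ε) * t ^ (d / 240) ≤ t ^ (1 + min gam (d / 480)) := by
    rw [← Real.rpow_add ht]
    refine Real.rpow_le_rpow_of_exponent_ge ht ht1 ?_
    have h5 := min_le_right gam (d / 480)
    have h6 := hcc.trans (min_le_right c1 (d / 960))
    rw [hεd]
    linarith
  have e3 : P * gR l ≤ (A * B) * 1153 ^ 3 * (t ^ (1 + min gam (d / 480)) * √ez) := by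
    rw [hg, hP]
    calc A * prE ε (Kt * t ^ (1 - c)) (Kt * t ^ (1 - c)) e e ez * (1153 ^ 3 * t ^ (d / 240))
        ≤ A * (B * (t ^ (1 - c - 2 * ε) * √ez)) * (1153 ^ 3 * t ^ (d / 240)) := by
          gcongr
      _ = (A * B) * 1153 ^ 3 * (t ^ (1 - c - 2 * ε) * t ^ (d / 240)) * √ez := by ring
      _ ≤ (A * B) * 1153 ^ 3 * t ^ (1 + min gam (d / 480)) * √ez := by gcongr
      _ = _ := by ring
  have e4 : 6 * P * gR l * wP 1 (cube3 K x) (nrt (fun p => g p.1 p.2) u v) ≤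
      6 * ((A * B) * 1153 ^ 3 * (t ^ (1 + min gam (d / 480)) * √ez)) *
        (3 * (8 ^ K * s ^ (5 / 4 : ℝ))) := by
    have h5 : 0 ≤ P * gR l := mul_nonneg hP0 (by rw [hg]; positivity)
    calc 6 * P * gR l * wP 1 (cube3 K x) (nrt (fun p => g p.1 p.2) u v)
        = 6 * (P * gR l) * wP 1 (cube3 K x) (nrt (fun p => g p.1 p.2) u v) := by ring
      _ ≤ _ := by
        refine mul_le_mul (mul_le_mul_of_nonneg_left e3 (by norm_num)) hw hw0 (by positivity)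
  have e5 : C * (t ^ (1 + gam) * s ^ (5 / 4 : ℝ) * √ez * 8 ^ K) ≤
      C * (t ^ (1 + min gam (d / 480)) * s ^ (5 / 4 : ℝ) * √ez * 8 ^ K) := by
    gcongr
  calc _ ≤ C * (t ^ (1 + min gam (d / 480)) * s ^ (5 / 4 : ℝ) * √ez * 8 ^ K) +
        6 * ((A * B) * 1153 ^ 3 * (t ^ (1 + min gam (d / 480)) * √ez)) *
          (3 * (8 ^ K * s ^ (5 / 4 : ℝ))) := add_le_add (main.trans e5) e4
    _ = _ := by ring

end

end Vale.Agent.P141.H305
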