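import Vale.Agent.P141.H650.Spec.CE1N
import Vale.Agent.P141.H579.Rest2

/-!
# P141, line (A), top: the statements between `H650.CE1n` and the engine of line (A)

Chain: `CE1n ⇐ CE1a ⇐ CE1r`.

* `CE1a`: `CE1n` for the nodes which are not stopped, threshold `t ^ (-d)` on the norms;
* `Cls`: data of one row class in coordinates, `U` the scalar majorants which define the stopping;
* `CE1r`: the price of one row class `r`, decay `r ^ (-del)`.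
-/

namespace Vale.Agent.P141.H305

open Finset
open Vale.Agent.P141.PL (Pt)
open Vale.Agent.P141.PL.H315 (iv Tri A2 avg)
open Vale.Agent.P141.H48 (US ES cst)
open Vale.Agent.P141.H579 (cosA nrt)
open Vale.Agent.P141.H136 (comp)
open Vale.Agent.P141.H971 (Cen)

noncomputable section

open scoped Classical

/-- **CE1, normalised data, the nodes which are not stopped**, threshold `t ^ (-d)`. -/
def CE1a : Prop :=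
  ∃ gam c1 d0 : ℝ, 0 < gam ∧ 0 < c1 ∧ 0 < d0 ∧ ∀ c : ℝ, 0 ≤ c → c ≤ c1 →
  ∀ d : ℝ, 0 < d → d ≤ d0 →
  ∀ Kt e cP L : ℝ, 0 < Kt → 1 ≤ e → 0 ≤ cP → 0 ≤ L → ∃ C : ℝ, 0 ≤ C ∧
  ∀ t : ℝ, 0 < t → t ≤ 1 → ∀ (n : ℕ) (ez : ℝ) (F1 F2 F3 : ℕ → Pt → ℝ),
    US n (Kt * t ^ (1 - c)) e cP F1 → US n (Kt * t ^ (1 - c)) e cP F3 → ES n ez cP F2 →
  ∀ o : ℤ, o = 1 ∨ o = -1 → ∀ K ≤ n, ∀ (x : Pt)
    (V : Type) [NormedAddCommGroup V] [InnerProductSpace ℝ V] [FiniteDimensional ℝ V]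
    (s : ℝ) (g : ℤ → ℤ → ℝ) (u v : ℤ → ℤ → V), 0 < s →
    Cen (iv K x.2.1) (iv K x.2.2) (iv K x.1) 1 √s 1 (L * t ^ (2 - c) * √s) g u v →
    cosA (fun k z => ¬ cst (t ^ (-d)) (nrt (fun p => g p.1 p.2) u v) K k z) o K x
        (comp (fun p => g p.1 p.2) u v) (fun k _ => F1 k) (fun k _ => F2 k) (fun k _ => F3 k) ≤
      C * (t ^ (1 + gam) * s ^ (5 / 4 : ℝ) * √ez * 8 ^ K)

/-- the cells `X1 = iv K x.1` (label vertex), `X2 = iv K x.2.1` (split vertex), `X3 = iv K x.2.2`;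
`U` scalar majorants of `(|u|, |v|, g)` of height one and mass at most `s`; `P` the potentials;
`r` the row class at the label vertex -/
structure Cls {ι : Type*} [Fintype ι] (K : ℕ) (x : Pt) (s r P : ℝ) (U : Tri) (g : ℤ → ℤ → ℝ)
    (u v : ℤ → ℤ → ι → ℝ) : Prop where
  /-- the gauge is the third edge of the majorants -/
  U_g : ∀ p : ℤ × ℤ, U.2.2 p = g p.1 p.2
  /-- heights -/
  g_le : ∀ y ∈ iv K x.2.1, ∀ z ∈ iv K x.2.2, |g y z| ≤ 1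
  U_u : ∀ z ∈ iv K x.1, ∀ y ∈ iv K x.2.1, 0 ≤ U.1 (z, y) ∧ U.1 (z, y) ≤ 1
  U_v : ∀ z ∈ iv K x.1, ∀ y ∈ iv K x.2.2, 0 ≤ U.2.1 (z, y) ∧ U.2.1 (z, y) ≤ 1
  u_le : ∀ z ∈ iv K x.1, ∀ y ∈ iv K x.2.1, u z y ⬝ᵥ u z y ≤ U.1 (z, y) ^ 2
  v_le : ∀ z ∈ iv K x.1, ∀ y ∈ iv K x.2.2, v z y ⬝ᵥ v z y ≤ U.2.1 (z, y) ^ 2
  /-- masses on the root squares -/
  U_u2 : A2 K U.1 x.1 x.2.1 ≤ s
  U_v2 : A2 K U.2.1 x.1 x.2.2 ≤ s
  U_g2 : A2 K U.2.2 x.2.1 x.2.2 ≤ s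
  /-- rows of the gauge at the split vertex -/
  g_row : ∀ y ∈ iv K x.2.1, (avg (iv K x.2.2) fun z => g y z ^ 2) ≤ √s
  /-- columns of `u` at the split vertex -/
  u_col : ∀ y ∈ iv K x.2.1, (avg (iv K x.1) fun z => u z y ⬝ᵥ u z y) ≤ 2 * √s / r
  /-- rows of `u` at the label vertex -/
  u_row : ∀ z ∈ iv K x.1, (avg (iv K x.2.1) fun y => u z y ⬝ᵥ u z y) ≤ r * √s
  /-- potentials at every point of the fibre -/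
  u_pot : ∀ z ∈ iv K x.1, ∀ w : ι → ℝ, (avg (iv K x.2.1) fun y => (u z y ⬝ᵥ w) ^ 2) ≤ P * (w ⬝ᵥ w)
  v_pot : ∀ z ∈ iv K x.1, ∀ w : ι → ℝ, (avg (iv K x.2.2) fun y => (v z y ⬝ᵥ w) ^ 2) ≤ P * (w ⬝ᵥ w)

/-- the centre atom in coordinates, labels at the first vertex -/
def cmp {ι : Type*} [Fintype ι] (g : ℤ → ℤ → ℝ) (u v : ℤ → ℤ → ι → ℝ) (y : Pt) : ℝ :=
  g y.2.1 y.2.2 * (u y.1 y.2.1 ⬝ᵥ v y.1 y.2.2)

/-- **CE1, one row class**, alive nodes of scalar majorants. -/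
def CE1r : Prop :=
  ∃ gam c1 d0 del : ℝ, 0 < gam ∧ 0 < c1 ∧ 0 < d0 ∧ 0 < del ∧ ∀ c : ℝ, 0 ≤ c → c ≤ c1 →
  ∀ d : ℝ, 0 < d → d ≤ d0 →
  ∀ Kt e cP L : ℝ, 0 < Kt → 1 ≤ e → 0 ≤ cP → 0 ≤ L → ∃ C : ℝ, 0 ≤ C ∧
  ∀ t : ℝ, 0 < t → t ≤ 1 → ∀ (n : ℕ) (ez : ℝ) (F1 F2 F3 : ℕ → Pt → ℝ),
    US n (Kt * t ^ (1 - c)) e cP F1 → US n (Kt * t ^ (1 - c)) e cP F3 → ES n ez cP F2 →
  ∀ o : ℤ, o = 1 ∨ o = -1 → ∀ K ≤ n, ∀ (x : Pt) (ι : Type) [Fintype ι] [DecidableEq ι]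
    (s r : ℝ) (U : Tri) (g : ℤ → ℤ → ℝ) (u v : ℤ → ℤ → ι → ℝ), 0 < s → 1 ≤ r →
    Cls K x s r (L * t ^ (2 - c) * √s) U g u v →
    cosA (fun k z => ¬ cst (t ^ (-d)) U K k z) o K x (cmp g u v)
        (fun k _ => F1 k) (fun k _ => F2 k) (fun k _ => F3 k) ≤
      C * (t ^ (1 + gam) * s ^ (5 / 4 : ℝ) * √ez * 8 ^ K) * r ^ (-del)

end

end Vale.Agent.P141.H305
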