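import Vale.Agent.P141.H401.CutV

/-!
# P141, line (A), top: the static cut of `u`

The set of dense fibres (`H401.Sel`) is cut also in `u`: the data `(lo Du u, lo Dv v)` are again
class data, the kernel is built with `lo Du u`.

* `cosA_cut5` : the cost with the cut of `b` first, any vectors `u'` of the kernel;
* `ClsM_loU` : the data with `lo u` are class data;
* `HSt00` : the price of the part of `u` on the set; `MkStUV`, `CStUV`;
* `ce1q_of_cstUV`, `ce1q_of_mkUV` : the class statement.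
-/

namespace Vale.Agent.P141.H305.CutU

open Finset Matrix
open Vale.Agent.P141.PL (Pt iv hs ix cx)
open Vale.Agent.P141.PL.H315 (Tri avg)
open Vale.Agent.P141.H48 (US ES BSl sst cst)
open Vale.Agent.P141.H579 (cosA)
open Vale.Agent.P141.H352 (In p)
open Vale.Agent.P141.H677
open Vale.Agent.P141.H401
open Vale.Agent.P141.H305 (ClsM kapM CE1q cmp price_mono)

noncomputable section

open scoped Classical

set_option linter.unusedSectionVars false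

variable {ι : Type} [Fintype ι] [DecidableEq ι]

/-! ### The cut of `u` -/

theorem mb_split0 (p : H401.Num) (U : Tri) (K : ℕ) (D : ℤ → ℤ → Prop) (u : ℤ → ℤ → ι → ℝ)
    (F3 : ℕ → Pt → ℝ) (x0 : ℤ) (k : ℕ) (x y : ℤ) :
    mb p U K u F3 x0 k x y = mb p U K (lo D u) F3 x0 k x y + mb p U K (hi D u) F3 x0 k x y := by
  show kF p.Lm U.1 K F3 k (x0, x, y) • u x y = kF p.Lm U.1 K F3 k (x0, x, y) • lo D u x y +
    kF p.Lm U.1 K F3 k (x0, x, y) • hi D u x y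
  rw [← smul_add, lo_add_hi]

/-- **The data with `lo u` are again class data.** -/
theorem ClsM_loU {K : ℕ} {x : Pt} {s r P κ : ℝ} {U : Tri} {g : ℤ → ℤ → ℝ} {u v : ℤ → ℤ → ι → ℝ}
    (D : ℤ → ℤ → Prop) (h : ClsM K x s r P κ U g u v) : ClsM K x s r P κ U g (lo D u) v where
  U_g := h.U_g
  g_le := h.g_le
  U_u := h.U_u
  U_v := h.U_v
  u_le := fun z hz y hy => (lo_self D u z y).trans (h.u_le z hz y hy)
  v_le := h.v_le
  U_u2 := h.U_u2
  U_v2 := h.U_v2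
  U_g2 := h.U_g2
  g_row := h.g_row
  u_col := fun y hy => (avg_mono' fun z _ => lo_self D u z y).trans (h.u_col y hy)
  u_row := fun z hz => (avg_mono' fun y _ => lo_self D u z y).trans (h.u_row z hz)
  u_pot := fun z hz w => (avg_mono' fun y _ => lo_dot_sq D u z y w).trans (h.u_pot z hz w)
  v_pot := h.v_pot
  act := fun z hz => (h.act z hz).imp id fun h1 => ⟨fun y => by
    unfold lo
    split_ifs
    · rfl
    · exact h1.1 y, h1.2⟩
  r_le := h.r_le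

/-! ### The cost -/

variable {o : ℤ} {Al : ℕ → Pt → Prop} {K : ℕ} {x : Pt} {g : ℤ × ℤ → ℝ} {u v : ℤ → ℤ → ι → ℝ}
  {F1 F2 F3 : ℕ → Pt → ℝ} {A A' A'' : ℤ → ℕ → ℤ → ℤ → ℝ}
  {b b₀ b₁ b' b'' b₃ C C' C'' : ℤ → ℕ → ℤ → ℤ → ι → ℝ}

/-- **Five cuts**: `b = b₁ + b₀`, `C = C' + C''`, `A = A' + A''`, `b₁ = b' + b'' + b₃`; `u'` any
vectors of the kernel. -/
theorem cosA_cut5 (ho : o = 1 ∨ o = -1) {l : ℝ} (hl : 0 < l) (u' : ℤ → ℤ → ι → ℝ)
    (h : AgrN o Al K x g u v F1 F2 F3 A b C)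
    (hb0 : ∀ x0 k x y, b x0 k x y = b₁ x0 k x y + b₀ x0 k x y)
    (hC : ∀ x0 k z x, C x0 k z x = C' x0 k z x + C'' x0 k z x)
    (hA : ∀ x0 k z y, A x0 k z y = A' x0 k z y + A'' x0 k z y)
    (hb : ∀ x0 k x y, b₁ x0 k x y = b' x0 k x y + (b'' x0 k x y + b₃ x0 k x y)) :
    ∃ sg : ℕ → Pt → ℝ, (∀ k m, |sg k m| ≤ 1) ∧
    cosA Al o K x (fun y => g y.2 * (u y.1 y.2.1 ⬝ᵥ v y.1 y.2.2)) (fun k _ => F1 k)
        (fun k _ => F2 k) (fun k _ => F3 k) ≤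
      NS o Al K x (fun x0 k m => |nf3 (A x0 k) (b₀ x0 k) (C x0 k) k m|) +
      (NS o Al K x (fun x0 k m => |nf3 (A x0 k) (b₁ x0 k) (C'' x0 k) k m|) +
      (NS o Al K x (fun x0 k m => |nf3 (A'' x0 k) (b₁ x0 k) (C' x0 k) k m|) +
      (NS o Al K x (fun x0 k m => |nf3 (A' x0 k) (b'' x0 k) (C' x0 k) k m|) +
      NS o Al K x (fun x0 k m => |nf3 (A' x0 k) (b₃ x0 k) (C' x0 k) k m|)))) +
      (NI ι l o Al K x u' A' b' C' sg + NZ ι l o Al K x u' A' b' C' sg +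
        NF ι l o Al K x u' A' b' C' sg) := by
  refine ⟨sgN o g u v F1 F2 F3, fun k m => abs_sgN_le .., ?_⟩
  set sg : ℕ → Pt → ℝ := sgN o g u v F1 F2 F3 with hsg
  have hs1 : ∀ k m, |sg k m| ≤ 1 := fun k m => abs_sgN_le ..
  rw [cosA_fam ho h]
  have e0b : ∀ x0 k, b x0 k = fun x y => b₁ x0 k x y + b₀ x0 k x y := fun x0 k => by
    funext z y
    exact hb0 x0 k z y
  have eA : ∀ x0 k, A x0 k = fun z y => A' x0 k z y + A'' x0 k z y := fun x0 k => by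
    funext z y
    exact hA x0 k z y
  have eb : ∀ x0 k, b₁ x0 k = fun x y => b' x0 k x y + (b'' x0 k x y + b₃ x0 k x y) :=
    fun x0 k => by
    funext z y
    exact hb x0 k z y
  have eC : ∀ x0 k, C x0 k = fun z x => C' x0 k z x + C'' x0 k z x := fun x0 k => by
    funext z y
    exact hC x0 k z y
  have e1 : NS o Al K x (fun x0 k m => sg k (rv m) *
      (hs k x0 * nf3 (A x0 k) (b x0 k) (C x0 k) k m)) =
      NS o Al K x (fun x0 k m => sg k (rv m) * (hs k x0 *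
        nf3 (A x0 k) (b₀ x0 k) (C x0 k) k m)) +
      (NS o Al K x (fun x0 k m => sg k (rv m) * (hs k x0 *
        nf3 (A x0 k) (b₁ x0 k) (C'' x0 k) k m)) +
      (NS o Al K x (fun x0 k m => sg k (rv m) * (hs k x0 *
        nf3 (A'' x0 k) (b₁ x0 k) (C' x0 k) k m)) +
      (NS o Al K x (fun x0 k m => sg k (rv m) * (hs k x0 *
        nf3 (A' x0 k) (b'' x0 k) (C' x0 k) k m)) +
      NS o Al K x (fun x0 k m => sg k (rv m) * (hs k x0 *
        nf3 (A' x0 k) (b₃ x0 k) (C' x0 k) k m))))) +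
      NS o Al K x (fun x0 k m => sg k (rv m) * (hs k x0 *
        nf3 (A' x0 k) (b' x0 k) (C' x0 k) k m)) := by
    rw [← NS_add, ← NS_add, ← NS_add, ← NS_add, ← NS_add]
    refine NS_congr fun x0 k hk m _ => ?_
    have e00 : nf3 (A x0 k) (b x0 k) (C x0 k) k m =
        nf3 (A x0 k) (b₁ x0 k) (C x0 k) k m + nf3 (A x0 k) (b₀ x0 k) (C x0 k) k m := by
      conv_lhs => rw [e0b x0 k]
      exact nf3_addB ..
    have e0 : nf3 (A x0 k) (b₁ x0 k) (C x0 k) k m =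
        nf3 (A x0 k) (b₁ x0 k) (C' x0 k) k m + nf3 (A x0 k) (b₁ x0 k) (C'' x0 k) k m := by
      conv_lhs => rw [eC x0 k]
      exact nf3_addC ..
    have e2 : nf3 (A x0 k) (b₁ x0 k) (C' x0 k) k m =
        nf3 (A' x0 k) (b₁ x0 k) (C' x0 k) k m + nf3 (A'' x0 k) (b₁ x0 k) (C' x0 k) k m := by
      conv_lhs => rw [eA x0 k]
      exact nf3_addA ..
    have e3 : nf3 (A' x0 k) (b₁ x0 k) (C' x0 k) k m =
        nf3 (A' x0 k) (b' x0 k) (C' x0 k) k m +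
          nf3 (A' x0 k) (fun x y => b'' x0 k x y + b₃ x0 k x y) (C' x0 k) k m := by
      conv_lhs => rw [eb x0 k]
      exact nf3_addB ..
    have e4 : nf3 (A' x0 k) (fun x y => b'' x0 k x y + b₃ x0 k x y) (C' x0 k) k m =
        nf3 (A' x0 k) (b'' x0 k) (C' x0 k) k m + nf3 (A' x0 k) (b₃ x0 k) (C' x0 k) k m := nf3_addB ..
    rw [e00, e0, e2, e3, e4]
    ring
  rw [e1]
  exact add_le_add (add_le_add (NS_sign_le sg hs1 _) (add_le_add (NS_sign_le sg hs1 _)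
    (add_le_add (NS_sign_le sg hs1 _) (add_le_add (NS_sign_le sg hs1 _)
      (NS_sign_le sg hs1 _))))) (split_fam hl sg hs1 A' b' C')

/-! ### Substitution of `u` -/

/-- **Substitution of `u`.** -/
theorem PartY.substU {Φ : StX} (Du : Sel) (H : PartY Φ) :
    PartY fun ι _ _ p n ez F1 F2 F3 o K x s r U g u v B =>
      Φ ι p n ez F1 F2 F3 o K x s r U g (lo (Du ι p K x s r U u) u) v B := by
  intro a ha ha1
  obtain ⟨es, hes, H⟩ := H a ha ha1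
  refine ⟨es, hes, fun e0 he0 he0' => ?_⟩
  obtain ⟨k8s, hk8s, H⟩ := H e0 he0 he0'
  refine ⟨k8s, hk8s, fun k8 hk8 hk8' => ?_⟩
  obtain ⟨k3s, hk3s, H⟩ := H k8 hk8 hk8'
  refine ⟨k3s, hk3s, fun k3 hk3 hk3' => ?_⟩
  obtain ⟨gam, c1, d0, del, hgam, hc1, hd0, hdel, H⟩ := H k3 hk3 hk3'
  refine ⟨gam, c1, d0, del, hgam, hc1, hd0, hdel, fun c hc hcc d hd hdd Kt e cP L hK he hcP hL => ?_⟩
  obtain ⟨CD, hCD, C, hC, H⟩ := H c hc hcc d hd hdd Kt e cP L hK he hcP hL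
  refine ⟨CD, hCD, C, hC, ?_⟩
  intro t ht ht1 n ez F1 F2 F3 h1 h3 h2 o ho K hKn x ι _ _ s r U g u v hs hr hcls
  exact H t ht ht1 n ez F1 F2 F3 h1 h3 h2 o ho K hKn x ι s r U g _ v hs hr (ClsM_loU _ hcls)

theorem PartX.substU {Φ : StX} (Du : Sel) (H : PartX Φ) :
    PartX fun ι _ _ p n ez F1 F2 F3 o K x s r U g u v B =>
      Φ ι p n ez F1 F2 F3 o K x s r U g (lo (Du ι p K x s r U u) u) v B := by
  intro a ha ha1
  obtain ⟨es, hes, H⟩ := H a ha ha1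
  refine ⟨es, hes, fun e0 he0 he0' => ?_⟩
  obtain ⟨k8s, hk8s, H⟩ := H e0 he0 he0'
  refine ⟨k8s, hk8s, fun k8 hk8 hk8' => ?_⟩
  obtain ⟨k3s, hk3s, H⟩ := H k8 hk8 hk8'
  refine ⟨k3s, hk3s, fun k3 hk3 hk3' => ?_⟩
  obtain ⟨gam, c1, d0, del, hgam, hc1, hd0, hdel, H⟩ := H k3 hk3 hk3'
  refine ⟨gam, c1, d0, del, hgam, hc1, hd0, hdel,
    fun c hc hcc d hd hdd Kt e cP L hK he hcP hL CD hCD => ?_⟩
  obtain ⟨C, hC, H⟩ := H c hc hcc d hd hdd Kt e cP L hK he hcP hL CD hCD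
  refine ⟨C, hC, ?_⟩
  intro t ht ht1 n ez F1 F2 F3 h1 h3 h2 o ho K hKn x ι _ _ s r U g u v hs hr hcls
  exact H t ht ht1 n ez F1 F2 F3 h1 h3 h2 o ho K hKn x ι s r U g _ v hs hr (ClsM_loU _ hcls)

/-! ### The leaves -/

/-- **Price of the part of `u` on the set** (`A` and `C` not cut). -/
def HSt00 (Du : Sel) : Prop :=
  PartQ fun ι _ _ p _n _ez F1 F2 F3 o K x s r U g u v _Q1 _Q2 _Q3 B =>
    NS o (p.al U K) K x (fun x0 k m =>
      |nf3 (mA p U K g F1 x0 k) (mb p U K (hi (Du ι p K x s r U u) u) F3 x0 k)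
        (mC p U K v F2 x0 k) k m|) ≤ B

/-- the price of the part of `v` on the set, data with `lo u` -/
def HSt0U (Du Dv : Sel) : Prop :=
  PartQ fun ι _ _ p _n _ez F1 F2 F3 o K x s r U g u v _Q1 _Q2 _Q3 B =>
    NS o (p.al U K) K x (fun x0 k m =>
      |nf3 (mA p U K g F1 x0 k) (mb p U K (lo (Du ι p K x s r U u) u) F3 x0 k)
        (mC p U K (hi (Dv ι p K x s r U v) v) F2 x0 k) k m|) ≤ B

/-- the sum of the prices of the unsplit parts, data with `lo u`, `lo v` -/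
def HStUV (Du Dv : Sel) : Prop :=
  PartQ fun ι _ _ p _n _ez F1 F2 F3 o K x s r U g u v Q1 _Q2 Q3 B =>
    NS o (p.al U K) K x (fun x0 k m => |nf3 (hA p s r U K g F1 Q1 x0 k)
      (mb p U K (lo (Du ι p K x s r U u) u) F3 x0 k)
      (mC p U K (lo (Dv ι p K x s r U v) v) F2 x0 k) k m|) +
    (NS o (p.al U K) K x (fun x0 k m => |nf3 (cA p s r U K g F1 Q1 x0 k)
      (hb1 p s r U K (lo (Du ι p K x s r U u) u) F3 Q3 x0 k)
      (mC p U K (lo (Dv ι p K x s r U v) v) F2 x0 k) k m|) +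
    NS o (p.al U K) K x (fun x0 k m => |nf3 (cA p s r U K g F1 Q1 x0 k)
      (hb3 p s r U K (lo (Du ι p K x s r U u) u) F3 Q3 x0 k)
      (mC p U K (lo (Dv ι p K x s r U v) v) F2 x0 k) k m|)) ≤ B

/-- **The cut families of the data with `lo u`, `lo v` have the property `D`.** -/
def MkStUV (Du Dv : Sel) (D : Bun) : Prop :=
  PartQ fun ι _ _ p n ez F1 F2 F3 o K x s r U g u v Q1 _Q2 Q3 _B =>
    D ι p n ez F1 F2 F3 o K x s r U g (lo (Du ι p K x s r U u) u) (lo (Dv ι p K x s r U v) v)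
      (cA p s r U K g F1 Q1) (cb p s r U K (lo (Du ι p K x s r U u) u) F3 Q3)
      (mC p U K (lo (Dv ι p K x s r U v) v) F2)

/-- **The price of a functional of the cut families of the data with `lo u`, `lo v`.** -/
def CStUV (Du Dv : Sel) (T : FunF) : Prop :=
  PartQ fun ι _ _ p _n _ez F1 F2 F3 o K x s r U g u v Q1 _Q2 Q3 B =>
    ∀ sg : ℕ → Pt → ℝ, (∀ k m, |sg k m| ≤ 1) →
      T ι (p.lam s r) o (p.al U K) K x (lo (Du ι p K x s r U u) u) (cA p s r U K g F1 Q1)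
        (cb p s r U K (lo (Du ι p K x s r U u) u) F3 Q3)
        (mC p U K (lo (Dv ι p K x s r U v) v) F2) sg ≤ B

theorem HSt0.toU (Du : Sel) {Dv : Sel} (H : HSt0 Dv) : HSt0U Du Dv := by
  unfold HSt0 PartQ at H
  unfold HSt0U PartQ
  exact PartY.substU Du H

theorem HStV.toU (Du : Sel) {Dv : Sel} (H : HStV Dv) : HStUV Du Dv := by
  unfold HStV PartQ at H
  unfold HStUV PartQ
  exact PartY.substU Du H

theorem MkStV.toU (Du : Sel) {Dv : Sel} {D : Bun} (H : MkStV Dv D) : MkStUV Du Dv D := by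
  unfold MkStV PartQ at H
  unfold MkStUV PartQ
  exact PartY.substU Du H

/-- a maker for all class data -/
theorem MkSt.toUV (Du Dv : Sel) {D : Bun} (H : MkSt D) : MkStUV Du Dv D :=
  MkStV.toU Du (MkSt.toV Dv H)

theorem CStV.toU (Du : Sel) {Dv : Sel} {T : FunF} (H : CStV Dv T) : CStUV Du Dv T := by
  unfold CStV PartQ at H
  unfold CStUV PartQ
  exact PartY.substU Du H

/-- a price for all class data -/
theorem CSt.toUV (Du Dv : Sel) {T : FunF} (H : CSt T) : CStUV Du Dv T :=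
  CStV.toU Du (CSt.toV Dv H)

/-- **maker and part** -/
theorem CStUV.of_mk {Du Dv : Sel} {D : Bun} {T : FunF} (H1 : MkStUV Du Dv D) (H2 : PartF D T) :
    CStUV Du Dv T := by
  unfold MkStUV PartQ at H1
  unfold PartF at H2
  unfold CStUV PartQ
  have H3 := PartX.substU Du (PartX.subst Dv H2)
  refine PartY.addX H1 H3 ?_
  intro ι _ _ p n ez F1 F2 F3 o K x s r U g u v B1 B2 B _ _ _ _ z1 _ k1 k2 k3 Q1 Q2 Q3 q1 q2 q3
    sg hsg
  exact (k2 _ _ _ (k1 Q1 Q2 Q3 q1 q2 q3) sg hsg).trans (by linarith)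

/-- `Sel` does not see the constant of the bundle -/
def NoCD (D : Sel) : Prop :=
  ∀ (ι : Type) [Fintype ι] [DecidableEq ι] (p : H401.Num) (CD : ℝ) (K : ℕ) (x : Pt) (s r : ℝ)
    (U : Tri) (v : ℤ → ℤ → ι → ℝ), D ι { p with CD := CD } K x s r U v = D ι p K x s r U v

/-- **The class statement from the prices of the cut families, five cuts.** -/
theorem ce1q_of_cstUV (Du Dv : Sel) (hDu : NoCD Du) (hDv : NoCD Dv)
    (H00 : HSt00 Du) (H0 : HSt0U Du Dv) (HH : HStUV Du Dv) (HI : CStUV Du Dv NI)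
    (HZ : CStUV Du Dv NZ) (HF : CStUV Du Dv NF) : CE1q := by
  unfold NoCD at hDu hDv
  unfold HSt00 PartQ at H00
  unfold HSt0U PartQ at H0
  unfold HStUV PartQ at HH
  unfold CStUV PartQ at HI HZ HF
  have HA := PartQ.add H00 H0 (Φ := fun ι _ _ p n ez F1 F2 F3 o K x s r U g u v B =>
      ∀ Q1 Q2 Q3 : ℕ → Pt → Prop, BSl n p.e p.cP F1 Q1 → BSl n ez p.cP F2 Q2 →
      BSl n p.e p.cP F3 Q3 →
      NS o (p.al U K) K x (fun x0 k m =>
        |nf3 (mA p U K g F1 x0 k) (mb p U K (hi (Du ι p K x s r U u) u) F3 x0 k)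
          (mC p U K v F2 x0 k) k m|) +
      NS o (p.al U K) K x (fun x0 k m =>
        |nf3 (mA p U K g F1 x0 k) (mb p U K (lo (Du ι p K x s r U u) u) F3 x0 k)
          (mC p U K (hi (Dv ι p K x s r U v) v) F2 x0 k) k m|) ≤ B)
    (fun ι _ _ p CD n ez F1 F2 F3 o K x s r U g u v B h => by
      simp only [hDu] at h
      exact h)
    (fun ι _ _ p CD n ez F1 F2 F3 o K x s r U g u v B h => by
      simp only [hDu, hDv] at h
      exact h)
    (fun ι _ _ p n ez F1 F2 F3 o K x s r U g u v B1 B2 B _ _ _ _ k1 k2 k3 Q1 Q2 Q3 q1 q2 q3 =>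
      (add_le_add (k1 Q1 Q2 Q3 q1 q2 q3) (k2 Q1 Q2 Q3 q1 q2 q3)).trans k3)
  have H1 := PartQ.add HA HH (Φ := fun ι _ _ p n ez F1 F2 F3 o K x s r U g u v B =>
      ∀ Q1 Q2 Q3 : ℕ → Pt → Prop, BSl n p.e p.cP F1 Q1 → BSl n ez p.cP F2 Q2 →
      BSl n p.e p.cP F3 Q3 →
      NS o (p.al U K) K x (fun x0 k m =>
        |nf3 (mA p U K g F1 x0 k) (mb p U K (hi (Du ι p K x s r U u) u) F3 x0 k)
          (mC p U K v F2 x0 k) k m|) +
      NS o (p.al U K) K x (fun x0 k m =>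
        |nf3 (mA p U K g F1 x0 k) (mb p U K (lo (Du ι p K x s r U u) u) F3 x0 k)
          (mC p U K (hi (Dv ι p K x s r U v) v) F2 x0 k) k m|) +
      (NS o (p.al U K) K x (fun x0 k m => |nf3 (hA p s r U K g F1 Q1 x0 k)
        (mb p U K (lo (Du ι p K x s r U u) u) F3 x0 k)
        (mC p U K (lo (Dv ι p K x s r U v) v) F2 x0 k) k m|) +
      (NS o (p.al U K) K x (fun x0 k m => |nf3 (cA p s r U K g F1 Q1 x0 k)
        (hb1 p s r U K (lo (Du ι p K x s r U u) u) F3 Q3 x0 k)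
        (mC p U K (lo (Dv ι p K x s r U v) v) F2 x0 k) k m|) +
      NS o (p.al U K) K x (fun x0 k m => |nf3 (cA p s r U K g F1 Q1 x0 k)
        (hb3 p s r U K (lo (Du ι p K x s r U u) u) F3 Q3 x0 k)
        (mC p U K (lo (Dv ι p K x s r U v) v) F2 x0 k) k m|))) ≤ B)
    (fun ι _ _ p CD n ez F1 F2 F3 o K x s r U g u v B h => by
      simp only [hDu, hDv] at h
      exact h)
    (fun ι _ _ p CD n ez F1 F2 F3 o K x s r U g u v B h => by
      simp only [hDu, hDv] at h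
      exact h)
    (fun ι _ _ p n ez F1 F2 F3 o K x s r U g u v B1 B2 B _ _ _ _ k1 k2 k3 Q1 Q2 Q3 q1 q2 q3 =>
      (add_le_add (k1 Q1 Q2 Q3 q1 q2 q3) (k2 Q1 Q2 Q3 q1 q2 q3)).trans k3)
  have H2 := PartQ.add HI HZ (Φ := fun ι _ _ p n ez F1 F2 F3 o K x s r U g u v B =>
      ∀ Q1 Q2 Q3 : ℕ → Pt → Prop, BSl n p.e p.cP F1 Q1 → BSl n ez p.cP F2 Q2 →
      BSl n p.e p.cP F3 Q3 → ∀ sg : ℕ → Pt → ℝ, (∀ k m, |sg k m| ≤ 1) →
      NI ι (p.lam s r) o (p.al U K) K x (lo (Du ι p K x s r U u) u) (cA p s r U K g F1 Q1)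
        (cb p s r U K (lo (Du ι p K x s r U u) u) F3 Q3)
        (mC p U K (lo (Dv ι p K x s r U v) v) F2) sg +
      NZ ι (p.lam s r) o (p.al U K) K x (lo (Du ι p K x s r U u) u) (cA p s r U K g F1 Q1)
        (cb p s r U K (lo (Du ι p K x s r U u) u) F3 Q3)
        (mC p U K (lo (Dv ι p K x s r U v) v) F2) sg ≤ B)
    (fun ι _ _ p CD n ez F1 F2 F3 o K x s r U g u v B h => by
      simp only [hDu, hDv] at h
      exact h)
    (fun ι _ _ p CD n ez F1 F2 F3 o K x s r U g u v B h => by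
      simp only [hDu, hDv] at h
      exact h)
    (fun ι _ _ p n ez F1 F2 F3 o K x s r U g u v B1 B2 B _ _ _ _ k1 k2 k3 Q1 Q2 Q3 q1 q2 q3 sg hsg =>
      (add_le_add (k1 Q1 Q2 Q3 q1 q2 q3 sg hsg) (k2 Q1 Q2 Q3 q1 q2 q3 sg hsg)).trans k3)
  have H3 := PartQ.add H2 HF (Φ := fun ι _ _ p n ez F1 F2 F3 o K x s r U g u v B =>
      ∀ Q1 Q2 Q3 : ℕ → Pt → Prop, BSl n p.e p.cP F1 Q1 → BSl n ez p.cP F2 Q2 →
      BSl n p.e p.cP F3 Q3 → ∀ sg : ℕ → Pt → ℝ, (∀ k m, |sg k m| ≤ 1) →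
      NI ι (p.lam s r) o (p.al U K) K x (lo (Du ι p K x s r U u) u) (cA p s r U K g F1 Q1)
        (cb p s r U K (lo (Du ι p K x s r U u) u) F3 Q3)
        (mC p U K (lo (Dv ι p K x s r U v) v) F2) sg +
      NZ ι (p.lam s r) o (p.al U K) K x (lo (Du ι p K x s r U u) u) (cA p s r U K g F1 Q1)
        (cb p s r U K (lo (Du ι p K x s r U u) u) F3 Q3)
        (mC p U K (lo (Dv ι p K x s r U v) v) F2) sg +
      NF ι (p.lam s r) o (p.al U K) K x (lo (Du ι p K x s r U u) u) (cA p s r U K g F1 Q1)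
        (cb p s r U K (lo (Du ι p K x s r U u) u) F3 Q3)
        (mC p U K (lo (Dv ι p K x s r U v) v) F2) sg ≤ B)
    (fun ι _ _ p CD n ez F1 F2 F3 o K x s r U g u v B h => by
      simp only [hDu, hDv] at h
      exact h)
    (fun ι _ _ p CD n ez F1 F2 F3 o K x s r U g u v B h => by
      simp only [hDu, hDv] at h
      exact h)
    (fun ι _ _ p n ez F1 F2 F3 o K x s r U g u v B1 B2 B _ _ _ _ k1 k2 k3 Q1 Q2 Q3 q1 q2 q3 sg hsg =>
      (add_le_add (k1 Q1 Q2 Q3 q1 q2 q3 sg hsg) (k2 Q1 Q2 Q3 q1 q2 q3 sg hsg)).trans k3)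
  have H4 := PartQ.add H1 H3 (Φ := fun _ _ _ p n ez F1 F2 F3 o K x _ _ U g u v B =>
      ∀ Q1 Q2 Q3 : ℕ → Pt → Prop, BSl n p.e p.cP F1 Q1 → BSl n ez p.cP F2 Q2 →
      BSl n p.e p.cP F3 Q3 →
      cosA (p.al U K) o K x (cmp g u v) (fun k _ => F1 k) (fun k _ => F2 k) (fun k _ => F3 k) ≤ B)
    (fun ι _ _ p CD n ez F1 F2 F3 o K x s r U g u v B h => by
      simp only [hDu, hDv] at h
      exact h)
    (fun ι _ _ p CD n ez F1 F2 F3 o K x s r U g u v B h => by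
      simp only [hDu, hDv] at h
      exact h)
    (fun ι _ _ p n ez F1 F2 F3 o K x s r U g u v B1 B2 B ht hs hr ho k1 k2 k3 Q1 Q2 Q3 q1 q2 q3 =>
      by
      obtain ⟨sg, hsg, hc⟩ := cosA_cut5 ho (H401.Num.lam_pos (p := p) ht hs hr)
        (lo (Du ι p K x s r U u) u)
        (agrN_m p o U K x g u v F1 F2 F3)
        (fun x0 k y z => mb_split0 p U K (Du ι p K x s r U u) u F3 x0 k y z)
        (fun x0 k z y => mC_split p U K (Dv ι p K x s r U v) v F2 x0 k z y)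
        (fun x0 k z y => mA_split p s r U K g F1 Q1 x0 k z y)
        (fun x0 k z y => mb_split p s r U K (lo (Du ι p K x s r U u) u) F3 Q3 x0 k z y)
      refine hc.trans (le_trans (add_le_add (le_of_eq ?_) le_rfl)
        ((add_le_add (k1 Q1 Q2 Q3 q1 q2 q3) (k2 Q1 Q2 Q3 q1 q2 q3 sg hsg)).trans k3))
      ring)
  intro a ha ha1
  obtain ⟨es, hes, H⟩ := H4 a ha ha1
  obtain ⟨k8s, hk8s, H⟩ := H es hes le_rfl
  obtain ⟨k3s, hk3s, H⟩ := H k8s hk8s le_rfl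
  obtain ⟨gam, c1, d0, del, hgam, hc1, hd0, hdel, H⟩ := H k3s hk3s le_rfl
  refine ⟨gam, c1, d0, del, hgam, hc1, hd0, hdel, fun c hc hcc d hd hdd Kt e cP L hK he hcP hL => ?_⟩
  obtain ⟨CD, hCD, C, hC, H⟩ := H c hc hcc d hd hdd Kt e cP L hK he hcP hL
  refine ⟨C, hC, ?_⟩
  intro t ht ht1 n ez F1 F2 F3 f1 f3 f2 o ho K hKn x ι _ _ s r U g u v hs hr hcls
  obtain ⟨Q1, q1⟩ := f1.2.2.2
  obtain ⟨Q2, q2⟩ := f2.2
  obtain ⟨Q3, q3⟩ := f3.2.2.2
  exact H t ht ht1 n ez F1 F2 F3 f1 f3 f2 o ho K hKn x ι s r U g u v hs hr hcls Q1 Q2 Q3 q1 q2 q3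

/-- **The class statement from the leaves**, both static cuts. -/
theorem ce1q_of_mkUV (Du Dv : Sel) (hDu : NoCD Du) (hDv : NoCD Dv) {DI DZ DF : Bun}
    (H00 : HSt00 Du) (H0 : HSt0 Dv) (H1 : HSt1) (H2 : HSt2) (H3 : HSt3)
    (MI : MkStUV Du Dv DI) (MZ : MkStUV Du Dv DZ) (MF : MkStUV Du Dv DF)
    (HI : PartF DI NI) (HZ : PartF DZ NZ) (HF : PartF DF NTFf) : CE1q := by
  have h : PartF DF NF := HF.le 1 zero_le_one fun ι _ _ l o _ Al K x u A b C sg => by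
    rw [one_mul]
    exact NF_le_TFf l o Al K x u A b C sg
  exact ce1q_of_cstUV Du Dv hDu hDv H00 (HSt0.toU Du H0)
    (HStV.toU Du ((HSt.of_three H1 H2 H3).toV Dv)) (CStUV.of_mk MI HI) (CStUV.of_mk MZ HZ)
    (CStUV.of_mk MF h)

end

end Vale.Agent.P141.H305.CutU
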