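import Vale.Agent.P141.H305.Top0
import Vale.Agent.P141.H677.Glue

/-!
# P141, line (A), top: the three parts of the price of a row class

`lam = t ^ (1 + c0) √s r ^ alE`, `alE = 69 / 200`.  `PartSt T`: the functional `T` of class data has the price of
`CE1r` for every small `c0`.

* `TI`, `TZ`, `TF`: the increasing part, the gap part (absolute values on the nodes) and the flow
  part (with the signs of the nodes);
* `cosA_three`: the cost of the alive nodes is at most the sum of the three;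
* `ce1r_of_parts : PartSt TI → PartSt TZ → PartSt TF → CE1r`.
-/

namespace Vale.Agent.P141.H305

open Finset
open Vale.Agent.P141.PL (Pt loc cx)
open Vale.Agent.P141.PL.H560 (cbs bx0)
open Vale.Agent.P141.PL.H317 (crn)
open Vale.Agent.P141.PL.H315 (iv Tri A2 avg)
open Vale.Agent.P141.H48 (US ES cst)
open Vale.Agent.P141.H579 (cosA)
open Vale.Agent.P141.H677 (nodeS fI fZ fF sgN nodesA cosA_split)

noncomputable section

open scoped Classical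

/-- the functionals of class data -/
abbrev Fun3 : Type 1 :=
  ∀ (ι : Type) [Fintype ι] [DecidableEq ι], ℝ → ℤ → (ℕ → Pt → Prop) → ℕ → Pt → (ℤ × ℤ → ℝ) →
    (ℤ → ℤ → ι → ℝ) → (ℤ → ℤ → ι → ℝ) → (ℕ → Pt → ℝ) → (ℕ → Pt → ℝ) → (ℕ → Pt → ℝ) → ℝ

/-- increasing part -/
def TI : Fun3 := fun _ _ _ l o A K x g u v F1 F2 F3 =>
  nodesA A K x fun k m => |nodeS o k m (F2 k) (fI l g u v (F1 k) (F3 k) k m.2.1)|

/-- gap part -/
def TZ : Fun3 := fun _ _ _ l o A K x g u v F1 F2 F3 =>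
  nodesA A K x fun k m => |nodeS o k m (F2 k) (fZ l g u v (F1 k) (F3 k) k m.2.1)|

/-- flow part, signs of the nodes -/
def TF : Fun3 := fun _ _ _ l o A K x g u v F1 F2 F3 =>
  |nodesA A K x fun k m => sgN o g u v F1 F2 F3 k m *
    nodeS o k m (F2 k) (fF l g u v (F1 k) (F3 k) k m.2.1)|

/-- the exponent of `r` in the gap `lam` -/
def alE : ℝ := 69 / 200

/-- **The price of a functional of class data**, every small `c0`. -/
def PartSt (T : Fun3) : Prop :=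
  ∃ cs : ℝ, 0 < cs ∧ ∀ c0 : ℝ, 0 < c0 → c0 ≤ cs →
  ∃ gam c1 d0 del : ℝ, 0 < gam ∧ 0 < c1 ∧ 0 < d0 ∧ 0 < del ∧ ∀ c : ℝ, 0 ≤ c → c ≤ c1 →
  ∀ d : ℝ, 0 < d → d ≤ d0 →
  ∀ Kt e cP L : ℝ, 0 < Kt → 1 ≤ e → 0 ≤ cP → 0 ≤ L → ∃ C : ℝ, 0 ≤ C ∧
  ∀ t : ℝ, 0 < t → t ≤ 1 → ∀ (n : ℕ) (ez : ℝ) (F1 F2 F3 : ℕ → Pt → ℝ),
    US n (Kt * t ^ (1 - c)) e cP F1 → US n (Kt * t ^ (1 - c)) e cP F3 → ES n ez cP F2 →
  ∀ o : ℤ, o = 1 ∨ o = -1 → ∀ K ≤ n, ∀ (x : Pt) (ι : Type) [Fintype ι] [DecidableEq ι]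
    (s r : ℝ) (U : Tri) (g : ℤ → ℤ → ℝ) (u v : ℤ → ℤ → ι → ℝ), 0 < s → 1 ≤ r →
    Cls K x s r (L * t ^ (2 - c) * √s) U g u v →
    T ι (t ^ (1 + c0) * √s * r ^ alE) o (fun k z => ¬ cst (t ^ (-d)) U K k z) K x
        (fun p => g p.1 p.2) u v F1 F2 F3 ≤
      C * (t ^ (1 + gam) * s ^ (5 / 4 : ℝ) * √ez * 8 ^ K) * r ^ (-del)

/-- monotonicity of the price in the exponents -/
theorem price_mono {t s r W gam gam' del del' C : ℝ} (ht : 0 < t) (ht1 : t ≤ 1) (hr : 1 ≤ r)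
    (hs : 0 ≤ s) (hW : 0 ≤ W) (hC : 0 ≤ C) (h1 : gam' ≤ gam) (h2 : del' ≤ del) (K : ℕ) :
    C * (t ^ (1 + gam) * s ^ (5 / 4 : ℝ) * W * 8 ^ K) * r ^ (-del) ≤
      C * (t ^ (1 + gam') * s ^ (5 / 4 : ℝ) * W * 8 ^ K) * r ^ (-del') := by
  have e1 : t ^ (1 + gam) ≤ t ^ (1 + gam') :=
    Real.rpow_le_rpow_of_exponent_ge ht ht1 (by linarith)
  have e2 : r ^ (-del) ≤ r ^ (-del') := Real.rpow_le_rpow_of_exponent_le hr (by linarith)
  have e3 : 0 ≤ s ^ (5 / 4 : ℝ) := Real.rpow_nonneg hs _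
  gcongr

/-- **Two functionals together.** -/
theorem PartSt.add {T1 T2 T : Fun3} (H1 : PartSt T1) (H2 : PartSt T2)
    (h : ∀ (ι : Type) [Fintype ι] [DecidableEq ι] (l : ℝ) (_ : 0 < l) (o : ℤ) (A : ℕ → Pt → Prop)
      (K : ℕ) (x : Pt) (g : ℤ × ℤ → ℝ) (u v : ℤ → ℤ → ι → ℝ) (F1 F2 F3 : ℕ → Pt → ℝ),
      T ι l o A K x g u v F1 F2 F3 ≤ T1 ι l o A K x g u v F1 F2 F3 +
        T2 ι l o A K x g u v F1 F2 F3) : PartSt T := by
  obtain ⟨cs1, hcs1, H1⟩ := H1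
  obtain ⟨cs2, hcs2, H2⟩ := H2
  refine ⟨min cs1 cs2, lt_min hcs1 hcs2, fun c0 hc0 hc0' => ?_⟩
  obtain ⟨g1, c1, d1, l1, hg1, hc1, hd1, hl1, H1⟩ := H1 c0 hc0 (hc0'.trans (min_le_left _ _))
  obtain ⟨g2, c2, d2, l2, hg2, hc2, hd2, hl2, H2⟩ := H2 c0 hc0 (hc0'.trans (min_le_right _ _))
  refine ⟨min g1 g2, min c1 c2, min d1 d2, min l1 l2, lt_min hg1 hg2, lt_min hc1 hc2,
    lt_min hd1 hd2, lt_min hl1 hl2, fun c hc hcc d hd hdd Kt e cP L hK he hcP hL => ?_⟩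
  obtain ⟨C1, hC1, H1⟩ := H1 c hc (hcc.trans (min_le_left _ _)) d hd (hdd.trans (min_le_left _ _))
    Kt e cP L hK he hcP hL
  obtain ⟨C2, hC2, H2⟩ := H2 c hc (hcc.trans (min_le_right _ _)) d hd
    (hdd.trans (min_le_right _ _)) Kt e cP L hK he hcP hL
  refine ⟨C1 + C2, by positivity, ?_⟩
  intro t ht ht1 n ez F1 F2 F3 h1 h3 h2 o ho K hKn x ι _ _ s r U g u v hs hr hcls
  have hr0 : 0 < r := by linarith
  have hl : 0 < t ^ (1 + c0) * √s * r ^ alE :=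
    mul_pos (mul_pos (Real.rpow_pos_of_pos ht _) (Real.sqrt_pos.2 hs)) (Real.rpow_pos_of_pos hr0 _)
  have k1 := H1 t ht ht1 n ez F1 F2 F3 h1 h3 h2 o ho K hKn x ι s r U g u v hs hr hcls
  have k2 := H2 t ht ht1 n ez F1 F2 F3 h1 h3 h2 o ho K hKn x ι s r U g u v hs hr hcls
  have m1 := k1.trans (price_mono ht ht1 hr hs.le (Real.sqrt_nonneg ez) hC1 (min_le_left g1 g2)
    (min_le_left l1 l2) K)
  have m2 := k2.trans (price_mono ht ht1 hr hs.le (Real.sqrt_nonneg ez) hC2 (min_le_right g1 g2)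
    (min_le_right l1 l2) K)
  refine (h ι _ hl o _ K x _ u v F1 F2 F3).trans ((add_le_add m1 m2).trans (le_of_eq ?_))
  ring

/-- the functional of the statement `CE1r` -/
def TA : Fun3 := fun _ _ _ _ o A K x g u v F1 F2 F3 =>
  cosA A o K x (fun y => g y.2 * (u y.1 y.2.1 ⬝ᵥ v y.1 y.2.2))
    (fun k _ => F1 k) (fun k _ => F2 k) fun k _ => F3 k

/-- **The cost of the alive nodes in three parts.** -/
theorem cosA_three (ι : Type) [Fintype ι] [DecidableEq ι] (l : ℝ) (hl : 0 < l) (o : ℤ)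
    (A : ℕ → Pt → Prop) (K : ℕ) (x : Pt) (g : ℤ × ℤ → ℝ) (u v : ℤ → ℤ → ι → ℝ)
    (F1 F2 F3 : ℕ → Pt → ℝ) :
    TA ι l o A K x g u v F1 F2 F3 ≤ TI ι l o A K x g u v F1 F2 F3 +
      (TZ ι l o A K x g u v F1 F2 F3 + TF ι l o A K x g u v F1 F2 F3) := by
  refine (cosA_split hl A o K x g u v F1 F2 F3).trans (le_of_eq ?_)
  rw [add_assoc]
  rfl

/-- **The three parts.** -/
theorem ce1r_of_parts (HI : PartSt TI) (HZ : PartSt TZ) (HF : PartSt TF) : CE1r := by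
  have H := HI.add (PartSt.add (T := fun ι _ _ l o A K x g u v F1 F2 F3 =>
    TZ ι l o A K x g u v F1 F2 F3 + TF ι l o A K x g u v F1 F2 F3) HZ HF
    fun ι _ _ l _ o A K x g u v F1 F2 F3 => le_rfl) (T := TA)
    fun ι _ _ l hl o A K x g u v F1 F2 F3 => cosA_three ι l hl o A K x g u v F1 F2 F3
  obtain ⟨cs, hcs, H⟩ := H
  obtain ⟨gam, c1, d0, del, hgam, hc1, hd0, hdel, H⟩ := H cs hcs le_rfl
  refine ⟨gam, c1, d0, del, hgam, hc1, hd0, hdel, fun c hc hcc d hd hdd Kt e cP L hK he hcP hL => ?_⟩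
  obtain ⟨C, hC, H⟩ := H c hc hcc d hd hdd Kt e cP L hK he hcP hL
  refine ⟨C, hC, ?_⟩
  intro t ht ht1 n ez F1 F2 F3 h1 h3 h2 o ho K hKn x ι _ _ s r U g u v hs hr hcls
  exact H t ht ht1 n ez F1 F2 F3 h1 h3 h2 o ho K hKn x ι s r U g u v hs hr hcls

end

end Vale.Agent.P141.H305
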