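import Vale.Agent.P141.H305.TopM
import Vale.Agent.P141.H198.RowClsA
import Vale.Agent.P141.H927.Spec2
import Vale.Agent.P141.H419.WpBox

/-!
# P141, line (A), top, version M: `CE1q → H927.CE1M`

One generation of stopping with the majorant `√(max |u|² κ₁)`, `κ₁` the activity of the label
point, then the row classes.
-/

namespace Vale.Agent.P141.H305

open Finset
open Vale.Agent.P141.PL (Pt cx mem_cb)
open Vale.Agent.P141.PL.H315 (iv Tri A2 avg avg_nonneg cube3 card_cube3 atm)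
open Vale.Agent.P141.PL.H317 (cube3_eq)
open Vale.Agent.P141.H48 (US ES cst Pos2 prE cG cG_nonneg Lam0 one_le_Lam0 genSt)
open Vale.Agent.P141.H579 (cosA nrt gR rest_cosF comp_cosF)
open Vale.Agent.P141.H572 (cosF)
open Vale.Agent.P141.H136 (comp)
open Vale.Agent.P141.H971 (Cen)
open Vale.Agent.P141.H922 (n2 n4 nN pw3 wP n2_nonneg n4_nonneg nN_nonneg wP_nonneg n2_e12 n2_e13
  n2_e23 n4_e12 n4_e13 n4_e23 nN_e12 nN_e13 nN_e23)
open Vale.Agent.P141.H834 (gf)
open Vale.Agent.P141.H498 (cEng cEng_nonneg pos2_asm)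
open Vale.Agent.P141.H198 (cls le_cls lt_of_cls cutC cutC_sq_le cosA_congr cosA_sum_le cls_of_cen
  geo_le pow_rpow_neg avg_mono' avg_nonneg' avg_mul')
open Vale.Agent.P141.H677 (cv norm_cv cen_coord comp_coord)

noncomputable section

open scoped Classical

/-- centre data for a larger mass and larger potentials -/
theorem cen_mono {V : Type*} [NormedAddCommGroup V] [InnerProductSpace ℝ V] {A B C : Finset ℤ}
    {p p' P P' : ℝ} {g : ℤ → ℤ → ℝ} {u v : ℤ → ℤ → V} (H : Cen A B C 1 p 1 P g u v) (hp : 0 ≤ p)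
    (hpp : p ≤ p') (hPP : P ≤ P') : Cen A B C 1 p' 1 P' g u v where
  a_le := H.a_le
  a_n2 := H.a_n2.trans hpp
  a_row := fun x hx => (H.a_row x hx).trans (by linarith)
  u_le := H.u_le
  v_le := H.v_le
  u_en := H.u_en.trans (by nlinarith)
  v_en := H.v_en.trans (by nlinarith)
  u_col := fun x hx => (H.u_col x hx).trans (by linarith)
  u_pot := fun z hz w => (H.u_pot z hz w).trans (mul_le_mul_of_nonneg_right hPP (by positivity))
  v_pot := fun z hz w => (H.v_pot z hz w).trans (mul_le_mul_of_nonneg_right hPP (by positivity))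

/-- the pair weight of a triple of height one and mass at most `s` -/
theorem wP_tri {K : ℕ} {x : Pt} {s : ℝ} (hs : 0 < s) {U : Tri}
    (u1 : ∀ p ∈ iv K x.1 ×ˢ iv K x.2.1, |U.1 p| ≤ 1)
    (v1 : ∀ p ∈ iv K x.1 ×ˢ iv K x.2.2, |U.2.1 p| ≤ 1)
    (g1 : ∀ p ∈ iv K x.2.1 ×ˢ iv K x.2.2, |U.2.2 p| ≤ 1)
    (u2 : n2 (iv K x.1 ×ˢ iv K x.2.1) U.1 ≤ √s)
    (v2 : n2 (iv K x.1 ×ˢ iv K x.2.2) U.2.1 ≤ √s)
    (g2 : n2 (iv K x.2.1 ×ˢ iv K x.2.2) U.2.2 ≤ √s) :
    wP 1 (cube3 K x) U ≤ 3 * (8 ^ K * s ^ (5 / 4 : ℝ)) := by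
  have un := nN_le_of hs.le u1 u2
  have vn := nN_le_of hs.le v1 v2
  have gn := nN_le_of hs.le g1 g2
  have key : s ^ (3 / 8 : ℝ) * s ^ (3 / 8 : ℝ) * √s = s ^ (5 / 4 : ℝ) := by
    rw [Real.sqrt_eq_rpow, ← Real.rpow_add hs, ← Real.rpow_add hs]
    norm_num
  have h3 : ∀ a b c : ℝ, 0 ≤ a → 0 ≤ b → 0 ≤ c → a ≤ s ^ (3 / 8 : ℝ) → b ≤ s ^ (3 / 8 : ℝ) →
      c ≤ √s → a * b * c ≤ s ^ (5 / 4 : ℝ) := by
    intro a b c ha hb hc h1 h2 h3
    rw [← key]
    exact mul_le_mul (mul_le_mul h1 h2 hb (by positivity)) h3 hc (by positivity)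
  obtain ⟨U1, U2, U3⟩ := U
  unfold H922.wP H922.pw3
  rw [card_cube3, nN_e12, nN_e13, nN_e23, n2_e12, n2_e13, n2_e23]
  have k1 := h3 _ _ _ (nN_nonneg _ _) (nN_nonneg _ _) (n2_nonneg _ _) un vn g2
  have k2 := h3 _ _ _ (nN_nonneg _ _) (nN_nonneg _ _) (n2_nonneg _ _) un gn v2
  have k3 := h3 _ _ _ (nN_nonneg _ _) (nN_nonneg _ _) (n2_nonneg _ _) vn gn u2
  have h8 : (0 : ℝ) ≤ 8 ^ K := by positivity
  push_cast
  calc 1 * (8 : ℝ) ^ K * _ ≤ 1 * (8 : ℝ) ^ K * (s ^ (5 / 4 : ℝ) + s ^ (5 / 4 : ℝ) +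
        s ^ (5 / 4 : ℝ)) := mul_le_mul_of_nonneg_left (add_le_add (add_le_add k1 k2) k3)
          (by positivity)
    _ = _ := by ring

section maj

variable {V : Type*} [NormedAddCommGroup V] [InnerProductSpace ℝ V]

/-- the activity of a label point -/
def kap1 (K : ℕ) (x : Pt) (t a s : ℝ) (u : ℤ → ℤ → V) (X : Finset ℤ) (z : ℤ) : ℝ :=
  if z ∈ X then min 1 (t ^ (2 - a) * (√s + 2 * avg (iv K x.2.1) fun y => ‖u z y‖ ^ 2)) else 0

/-- the majorant of the data with an active set -/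
def maj (K : ℕ) (x : Pt) (t a s : ℝ) (g : ℤ → ℤ → ℝ) (u v : ℤ → ℤ → V) (X : Finset ℤ) : Tri :=
  (fun p => √(max (‖u p.1 p.2‖ ^ 2) (kap1 K x t a s u X p.1)), fun p => ‖v p.1 p.2‖,
    fun p => g p.1 p.2)

theorem kap1_nonneg {K : ℕ} {x : Pt} {t a s : ℝ} (ht : 0 < t) (u : ℤ → ℤ → V) (X : Finset ℤ)
    (z : ℤ) : 0 ≤ kap1 K x t a s u X z := by
  unfold kap1
  split_ifs
  · refine le_min zero_le_one (mul_nonneg (Real.rpow_nonneg ht.le _) ?_)
    have : 0 ≤ avg (iv K x.2.1) fun y => ‖u z y‖ ^ 2 := avg_nonneg' fun y _ => by positivity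
    positivity
  · exact le_rfl

theorem kap1_le_one {K : ℕ} {x : Pt} {t a s : ℝ} (u : ℤ → ℤ → V) (X : Finset ℤ)
    (z : ℤ) : kap1 K x t a s u X z ≤ 1 := by
  unfold kap1
  split_ifs
  · exact min_le_left _ _
  · exact zero_le_one

theorem maj_sq {K : ℕ} {x : Pt} {t a s : ℝ} (g : ℤ → ℤ → ℝ) (u v : ℤ → ℤ → V) (X : Finset ℤ)
    (p : ℤ × ℤ) : (maj K x t a s g u v X).1 p ^ 2 =
      max (‖u p.1 p.2‖ ^ 2) (kap1 K x t a s u X p.1) := by
  unfold maj
  exact Real.sq_sqrt (le_max_of_le_left (sq_nonneg _))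

theorem norm_le_maj {K : ℕ} {x : Pt} {t a s : ℝ} (g : ℤ → ℤ → ℝ) (u v : ℤ → ℤ → V)
    (X : Finset ℤ) (p : ℤ × ℤ) : ‖u p.1 p.2‖ ≤ (maj K x t a s g u v X).1 p := by
  unfold maj
  refine Real.le_sqrt_of_sq_le ?_
  exact le_max_left _ _

/-- the mass of the majorant -/
theorem maj_mass {K : ℕ} {x : Pt} {t a s S L : ℝ} (ht : 0 < t) (ht1 : t ≤ 1) (ha : 0 < a)
    (ha1 : a ≤ 1) (hS : 0 < S) (hL : 0 ≤ L) (hs : s = (L + 3) ^ 2 * S) (g : ℤ → ℤ → ℝ)
    (u v : ℤ → ℤ → V) (X : Finset ℤ)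
    (hu : (avg (iv K x.1) fun z => avg (iv K x.2.1) fun y => ‖u z y‖ ^ 2) ≤ S)
    (hX : (avg (iv K x.1) fun z => if z ∈ X then (1 : ℝ) else 0) * (t ^ 2 * √S) ≤
      L * (t ^ a * S)) :
    (avg (iv K x.1) fun z => avg (iv K x.2.1) fun y =>
      (maj K x t a s g u v X).1 (z, y) ^ 2) ≤ s := by
  set row : ℤ → ℝ := fun z => avg (iv K x.2.1) fun y => ‖u z y‖ ^ 2 with hrow
  set I : ℤ → ℝ := fun z => if z ∈ X then (1 : ℝ) else 0 with hI
  have hrow0 : ∀ z, 0 ≤ row z := fun z => avg_nonneg' fun y _ => by positivity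
  have hta : t ^ (2 - a) ≤ 1 := Real.rpow_le_one ht.le ht1 (by linarith)
  have hta0 : 0 < t ^ (2 - a) := Real.rpow_pos_of_pos ht _
  have hcard : ((iv K x.2.1).card : ℝ) ≠ 0 := by
    rw [PL.H315.card_iv]
    positivity
  have e1 : ∀ z, (avg (iv K x.2.1) fun y => (maj K x t a s g u v X).1 (z, y) ^ 2) ≤
      row z + (t ^ (2 - a) * √s * I z + t ^ (2 - a) * 2 * row z) := by
    intro z
    have e2 : (avg (iv K x.2.1) fun y => (maj K x t a s g u v X).1 (z, y) ^ 2) ≤
        avg (iv K x.2.1) fun y => ‖u z y‖ ^ 2 + kap1 K x t a s u X z := by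
      refine avg_mono' fun y _ => ?_
      rw [maj_sq]
      exact max_le (by have := kap1_nonneg (K := K) (x := x) (a := a) (s := s) ht u X z; linarith)
        (by have := sq_nonneg ‖u z y‖; linarith)
    have e3 : (avg (iv K x.2.1) fun y => ‖u z y‖ ^ 2 + kap1 K x t a s u X z) =
        row z + kap1 K x t a s u X z := by
      simp only [hrow, avg, sum_add_distrib, sum_const, nsmul_eq_mul, mul_add]
      rw [← mul_assoc, inv_mul_cancel₀ hcard, one_mul]
    have e4 : kap1 K x t a s u X z ≤ t ^ (2 - a) * √s * I z + t ^ (2 - a) * 2 * row z := by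
      unfold kap1
      by_cases hz : z ∈ X
      · rw [if_pos hz]
        refine (min_le_right _ _).trans (le_of_eq ?_)
        simp only [hI, if_pos hz, hrow]
        ring
      · rw [if_neg hz]
        simp only [hI, if_neg hz]
        have := hrow0 z
        positivity
    linarith [e2.trans (le_of_eq e3)]
  have e5 : (avg (iv K x.1) fun z => avg (iv K x.2.1) fun y =>
      (maj K x t a s g u v X).1 (z, y) ^ 2) ≤
      avg (iv K x.1) row + (t ^ (2 - a) * √s * avg (iv K x.1) I +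
        t ^ (2 - a) * 2 * avg (iv K x.1) row) := by
    refine (avg_mono' fun z _ => e1 z).trans (le_of_eq ?_)
    simp only [avg, sum_add_distrib, ← mul_sum]
    ring
  have hss : √s = (L + 3) * √S := by
    rw [hs, Real.sqrt_mul (by positivity), Real.sqrt_sq (by linarith)]
  have hI0 : 0 ≤ avg (iv K x.1) I := avg_nonneg' fun z _ => by
    simp only [hI]; split_ifs <;> norm_num
  have e6 : t ^ (2 - a) * √S * avg (iv K x.1) I ≤ L * S := by
    have h1 : t ^ (2 - a) * √S * avg (iv K x.1) I =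
        t ^ (-a) * (avg (iv K x.1) I * (t ^ 2 * √S)) := by
      rw [show (2 : ℝ) - a = (-a) + 2 by ring, Real.rpow_add ht, Real.rpow_two]
      ring
    rw [h1]
    refine (mul_le_mul_of_nonneg_left hX (Real.rpow_nonneg ht.le _)).trans (le_of_eq ?_)
    rw [show t ^ (-a) * (L * (t ^ a * S)) = (t ^ (-a) * t ^ a) * (L * S) by ring,
      ← Real.rpow_add ht]
    simp
  have hrow1 : 0 ≤ avg (iv K x.1) row := avg_nonneg' fun z _ => hrow0 z
  have e7 : t ^ (2 - a) * 2 * avg (iv K x.1) row ≤ 2 * S := by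
    have : t ^ (2 - a) * avg (iv K x.1) row ≤ 1 * S := mul_le_mul hta hu hrow1 zero_le_one
    linarith
  have e8 : t ^ (2 - a) * √s * avg (iv K x.1) I ≤ (L + 3) * (L * S) := by
    rw [hss]
    have : t ^ (2 - a) * ((L + 3) * √S) * avg (iv K x.1) I =
        (L + 3) * (t ^ (2 - a) * √S * avg (iv K x.1) I) := by ring
    rw [this]
    exact mul_le_mul_of_nonneg_left e6 (by linarith)
  have hu' : avg (iv K x.1) row ≤ S := hu
  have hfin : avg (iv K x.1) row + (t ^ (2 - a) * √s * avg (iv K x.1) I +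
        t ^ (2 - a) * 2 * avg (iv K x.1) row) ≤ (L + 3) ^ 2 * S := by
    nlinarith
  exact e5.trans (hfin.trans (le_of_eq hs.symm))

end maj

section cls

variable {V : Type*} [NormedAddCommGroup V] [InnerProductSpace ℝ V] [FiniteDimensional ℝ V]

theorem cv_zero' : cv (0 : V) = 0 := by
  funext i
  simp [cv]

/-- **One row class with activity.** -/
theorem clsM_of_cen {K : ℕ} {x : Pt} {t a s P L : ℝ} (ht : 0 < t) (hs : 0 < s) (hL : 1 ≤ L)
    {g : ℤ → ℤ → ℝ} {u v : ℤ → ℤ → V} {X : Finset ℤ}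
    (H : Cen (iv K x.2.1) (iv K x.2.2) (iv K x.1) 1 √s 1 P g u v) (hq : 0 < √s)
    (hX : ∀ z, z ∉ X → ∀ y, u z y = 0) (hXv : ∀ z, z ∉ X → ∀ y, v z y = 0)
    (hm : (avg (iv K x.1) fun z => avg (iv K x.2.1) fun y =>
      (maj K x t a s g u v X).1 (z, y) ^ 2) ≤ s) (i : ℕ)
    (hr : (2 : ℝ) ^ i = 1 ∨ 2 ^ i * √s ≤ 2) :
    ClsM K x s (2 ^ i) P (kapM L t a s (2 ^ i)) (maj K x t a s g u v X) g
      (cutC (fun z => cls hq (avg (iv K x.2.1) fun y => ‖u z y‖ ^ 2) = i) fun z y => cv (u z y))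
      (cutC (fun z => cls hq (avg (iv K x.2.1) fun y => ‖u z y‖ ^ 2) = i)
        fun z y => cv (v z y)) := by
  have H0 := cls_of_cen hs H hq i
  have hu1 : ∀ z ∈ iv K x.1, ∀ y ∈ iv K x.2.1, ‖u z y‖ ^ 2 ≤ 1 := fun z hz y hy => by
    have h := H.u_le z hz y hy
    rwa [one_pow, one_mul] at h
  refine { toCls := ?_, act := ?_, r_le := hr }
  · exact {
      U_g := fun p => rfl
      g_le := H0.g_le
      U_u := fun z hz y hy => ⟨Real.sqrt_nonneg _, by
        show √(max (‖u z y‖ ^ 2) (kap1 K x t a s u X z)) ≤ 1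
        refine (Real.sqrt_le_sqrt (max_le (hu1 z hz y hy) (kap1_le_one _ _ _))).trans ?_
        rw [Real.sqrt_one]⟩
      U_v := H0.U_v
      u_le := fun z hz y hy => (H0.u_le z hz y hy).trans
        (pow_le_pow_left₀ (norm_nonneg _) (norm_le_maj g u v X (z, y)) 2)
      v_le := fun z hz y hy => (cutC_sq_le _ _ z y).trans (H0.v_le z hz y hy)
      U_u2 := by
        unfold PL.H315.A2
        rw [H550.avg_prod]
        exact hm
      U_v2 := H0.U_v2
      U_g2 := H0.U_g2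
      g_row := H0.g_row
      u_col := H0.u_col
      u_row := H0.u_row
      u_pot := H0.u_pot
      v_pot := fun z hz w => by
        refine le_trans (avg_mono' fun y _ => ?_) (H0.v_pot z hz w)
        unfold cutC
        split_ifs
        · exact le_rfl
        · rw [zero_dotProduct, zero_pow two_ne_zero]
          positivity }
  · intro z hz
    by_cases hc : cls hq (avg (iv K x.2.1) fun y => ‖u z y‖ ^ 2) = i
    · by_cases hzX : z ∈ X
      · left
        intro y _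
        rw [maj_sq]
        refine le_trans ?_ (le_max_right _ _)
        show kapM L t a s (2 ^ i) ≤ kap1 K x t a s u X z
        unfold kapM kap1
        rw [if_pos hzX]
        have hrow0 : 0 ≤ avg (iv K x.2.1) fun y => ‖u z y‖ ^ 2 :=
          avg_nonneg' fun y _ => by positivity
        have h2 : √s * 2 ^ i ≤ √s + 2 * avg (iv K x.2.1) fun y => ‖u z y‖ ^ 2 := by
          rcases i with _ | j
          · simp only [pow_zero, mul_one]
            linarith
          · have hl := lt_of_cls hq hc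
            rw [pow_succ]
            nlinarith
        have h3 : min 1 (t ^ (2 - a) * √s * 2 ^ i) ≤
            min 1 (t ^ (2 - a) * (√s + 2 * avg (iv K x.2.1) fun y => ‖u z y‖ ^ 2)) := by
          refine min_le_min le_rfl ?_
          rw [mul_assoc]
          exact mul_le_mul_of_nonneg_left h2 (Real.rpow_nonneg ht.le _)
        refine le_trans ?_ h3
        have h4 : 0 ≤ min 1 (t ^ (2 - a) * √s * 2 ^ i) :=
          le_min zero_le_one (by have := Real.rpow_nonneg ht.le (2 - a); positivity)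
        exact mul_le_of_le_one_left h4 (inv_le_one_of_one_le₀ hL)
      · right
        refine ⟨fun y => ?_, fun y => ?_⟩
        · unfold cutC
          rw [if_pos hc]
          show cv (u z y) = 0
          rw [hX z hzX y]
          exact cv_zero'
        · unfold cutC
          rw [if_pos hc]
          show cv (v z y) = 0
          rw [hXv z hzX y]
          exact cv_zero'
    · right
      refine ⟨fun y => ?_, fun y => ?_⟩ <;>
      · unfold cutC
        rw [if_neg hc]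

end cls

/-- the alive sum by classes -/
theorem alive_cls {V : Type} [NormedAddCommGroup V] [InnerProductSpace ℝ V]
    [FiniteDimensional ℝ V] {K : ℕ} {x : Pt} {t a s P L del E : ℝ} {Al : ℕ → Pt → Prop} {o : ℤ}
    (ht : 0 < t) (hs : 0 < s) (hL : 1 ≤ L) (hdel : 0 < del) (hE : 0 ≤ E)
    {g : ℤ → ℤ → ℝ} {u v : ℤ → ℤ → V} {X : Finset ℤ} {F1 F2 F3 : ℕ → Pt → Pt → ℝ}
    (hcen : Cen (iv K x.2.1) (iv K x.2.2) (iv K x.1) 1 √s 1 P g u v)
    (hXu : ∀ z, z ∉ X → ∀ y, u z y = 0) (hXv : ∀ z, z ∉ X → ∀ y, v z y = 0)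
    (hmass : (avg (iv K x.1) fun z => avg (iv K x.2.1) fun y =>
      (maj K x t a s g u v X).1 (z, y) ^ 2) ≤ s)
    (H : ∀ (r : ℝ) (u' v' : ℤ → ℤ → H677.Lab V → ℝ), 1 ≤ r →
      ClsM K x s r P (kapM L t a s r) (maj K x t a s g u v X) g u' v' →
      cosA Al o K x (cmp g u' v') F1 F2 F3 ≤ E * r ^ (-del)) :
    cosA Al o K x (comp (fun p => g p.1 p.2) u v) F1 F2 F3 ≤
      E * (1 - (2 : ℝ) ^ (-del))⁻¹ := by
  have hq : 0 < √s := Real.sqrt_pos.2 hs
  have hρ1 : (2 : ℝ) ^ (-del) < 1 :=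
    Real.rpow_lt_one_of_one_lt_of_neg (by norm_num) (by linarith)
  have hρ0 : (0 : ℝ) ≤ (2 : ℝ) ^ (-del) := by positivity
  set f : ℤ → ℕ := fun z => cls hq (avg (iv K x.2.1) fun y => ‖u z y‖ ^ 2) with hf
  set I : ℕ := (iv K x.1).sup f + 1 with hI
  have hfI : ∀ z ∈ iv K x.1, f z < I := fun z hz => Nat.lt_succ_of_le (le_sup hz)
  have hroot : ∀ y ∈ cube3 K x, y.1 ∈ iv K x.1 := by
    intro y hy
    rw [cube3_eq] at hy
    have h := mem_cb.1 hy
    rw [PL.H315.mem_iv]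
    exact congrArg Prod.fst h
  have e1 : cosA Al o K x (comp (fun p => g p.1 p.2) u v) F1 F2 F3 =
      cosA Al o K x (fun y => ∑ i ∈ range I,
        cmp g (cutC (fun z => f z = i) fun z y => cv (u z y))
          (cutC (fun z => f z = i) fun z y => cv (v z y)) y) F1 F2 F3 := by
    refine cosA_congr fun y hy => ?_
    rw [comp_coord, sum_eq_single_of_mem (f y.1) (mem_range.2 (hfI _ (hroot y hy)))]
    · unfold cmp cutC
      rw [if_pos rfl, if_pos rfl]
    · intro i _ hi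
      unfold cmp cutC
      rw [if_neg (fun h => hi h.symm), zero_dotProduct, mul_zero]
  rw [e1]
  refine (cosA_sum_le _ o K x I _ _ _ _).trans ?_
  have key : ∀ i ∈ range I, cosA Al o K x
      (cmp g (cutC (fun z => f z = i) fun z y => cv (u z y))
        (cutC (fun z => f z = i) fun z y => cv (v z y))) F1 F2 F3 ≤
      E * ((2 : ℝ) ^ (-del)) ^ i := by
    intro i _
    by_cases hr : (2 : ℝ) ^ i = 1 ∨ 2 ^ i * √s ≤ 2
    · rw [← pow_rpow_neg]
      exact H (2 ^ i) _ _ (one_le_pow₀ (by norm_num))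
        (clsM_of_cen ht hs hL hcen hq hXu hXv hmass i hr)
    · -- an empty class
      push_neg at hr
      obtain ⟨hr1, hr2⟩ := hr
      have hnn : 0 ≤ E * ((2 : ℝ) ^ (-del)) ^ i := by positivity
      refine le_trans ?_ hnn
      have e2 : ∀ p ∈ cube3 K x, cmp g (cutC (fun z => f z = i) fun z y => cv (u z y))
          (cutC (fun z => f z = i) fun z y => cv (v z y)) p =
          (fun p => ∑ i ∈ range 0, (fun (_ : ℕ) (_ : Pt) => (0 : ℝ)) i p) p := by
        intro y hy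
        have hy1 : y.1 ∈ iv K x.1 := hroot y hy
        have hne : f y.1 ≠ i := by
          intro hfi
          rcases i with _ | j
          · exact hr1 (pow_zero _)
          · have hl := lt_of_cls hq hfi
            have hle : (avg (iv K x.2.1) fun y' => ‖u y.1 y'‖ ^ 2) ≤ 1 := by
              have hcard : ((iv K x.2.1).card : ℝ) ≠ 0 := by
                rw [PL.H315.card_iv]
                positivity
              refine (avg_mono' (g := fun _ => (1 : ℝ)) fun y' hy' => ?_).trans ?_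
              · have h := hcen.u_le y.1 hy1 y' hy'
                rwa [one_pow, one_mul] at h
              · simp only [avg, sum_const, nsmul_eq_mul, mul_one]
                rw [inv_mul_cancel₀ hcard]
            rw [pow_succ] at hr2
            linarith
        unfold cmp cutC
        rw [if_neg hne, zero_dotProduct, mul_zero]
        simp
      rw [cosA_congr e2]
      refine (cosA_sum_le _ o K x 0 _ _ _ _).trans ?_
      simp
  refine (sum_le_sum key).trans ?_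
  rw [← mul_sum]
  exact mul_le_mul_of_nonneg_left (geo_le hρ0 hρ1 I) hE

/-- the pair weight of the majorant -/
theorem wP_maj {V : Type*} [NormedAddCommGroup V] [InnerProductSpace ℝ V]
    {K : ℕ} {x : Pt} {t a s P : ℝ} (hs : 0 < s)
    {g : ℤ → ℤ → ℝ} {u v : ℤ → ℤ → V} {X : Finset ℤ}
    (hcen : Cen (iv K x.2.1) (iv K x.2.2) (iv K x.1) 1 √s 1 P g u v)
    (hmass : (avg (iv K x.1) fun z => avg (iv K x.2.1) fun y =>
      (maj K x t a s g u v X).1 (z, y) ^ 2) ≤ s) :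
    wP 1 (cube3 K x) (maj K x t a s g u v X) ≤ 3 * (8 ^ K * s ^ (5 / 4 : ℝ)) := by
  have hss : √s ^ 2 = s := Real.sq_sqrt hs.le
  refine wP_tri hs ?_ ?_ ?_ ?_ ?_ ?_
  · intro p hp
    rw [mem_product] at hp
    show |√(max (‖u p.1 p.2‖ ^ 2) (kap1 K x t a s u X p.1))| ≤ 1
    rw [abs_of_nonneg (Real.sqrt_nonneg _)]
    have h := hcen.u_le p.1 hp.1 p.2 hp.2
    rw [one_pow, one_mul] at h
    refine (Real.sqrt_le_sqrt (max_le h (kap1_le_one _ _ _))).trans ?_
    rw [Real.sqrt_one]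
  · intro p hp
    rw [mem_product] at hp
    have h := hcen.v_le p.1 hp.1 p.2 hp.2
    rw [one_pow, one_mul] at h
    show |‖v p.1 p.2‖| ≤ 1
    rw [abs_norm]
    nlinarith [norm_nonneg (v p.1 p.2)]
  · intro p hp
    rw [mem_product] at hp
    exact hcen.a_le p.1 hp.1 p.2 hp.2
  · unfold H922.n2
    refine Real.sqrt_le_sqrt ?_
    rw [H550.avg_prod]
    exact hmass
  · unfold H922.n2
    refine Real.sqrt_le_sqrt ?_
    rw [H550.avg_prod]
    have h := hcen.v_en
    rwa [one_mul, hss] at h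
  · exact hcen.a_n2

/-- the dead part: the restart for the majorant -/
theorem dead_maj {V : Type} [NormedAddCommGroup V] [InnerProductSpace ℝ V]
    [FiniteDimensional ℝ V] {K : ℕ} {x : Pt} {t a s P0 P l : ℝ} {o : ℤ} (hl1 : 1 ≤ l)
    (hs : 0 < s) (hP : 0 ≤ P)
    {g : ℤ → ℤ → ℝ} {u v : ℤ → ℤ → V} {X : Finset ℤ} {F1 F2 F3 : ℕ → Pt → Pt → ℝ}
    (hcen : Cen (iv K x.2.1) (iv K x.2.2) (iv K x.1) 1 √s 1 P0 g u v)
    (hmass : (avg (iv K x.1) fun z => avg (iv K x.2.1) fun y =>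
      (maj K x t a s g u v X).1 (z, y) ^ 2) ≤ s)
    (h : ∀ K' < K, ∀ x' : Pt, ∀ a : Tri,
      cosF o K' x' (atm a) F1 F2 F3 ≤ P * wP 1 (cube3 K' x') a) (hg : 0 ≤ gR l) :
    cosF o K x (comp (fun p => g p.1 p.2) u v) F1 F2 F3 ≤
      cosA (fun k z => ¬ cst (l ^ 4) (maj K x t a s g u v X) K k z) o K x
        (comp (fun p => g p.1 p.2) u v) F1 F2 F3 + 6 * (P * gR l) * (3 * (8 ^ K * s ^ (5 / 4 : ℝ))) := by
  have rest := rest_cosF hl1 (P := 6 * P) (by positivity) (maj K x t a s g u v X) o K x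
    (comp (fun p => g p.1 p.2) u v) F1 F2 F3 fun K' hK' x' _ => by
      refine (comp_cosF hP o K' x' (fun p => g p.1 p.2) u v _ _ _ fun a => h K' hK' x' a).trans ?_
      refine mul_le_mul_of_nonneg_left ?_ (by positivity)
      refine H419.wP_mono zero_le_one (fun p _ => ?_) (fun p _ => ?_) fun p _ => ?_
      · show |‖u p.1 p.2.1‖| ≤ |(maj K x t a s g u v X).1 (p.1, p.2.1)|
        rw [abs_norm]
        exact (norm_le_maj g u v X (p.1, p.2.1)).trans (le_abs_self _)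
      · exact le_rfl
      · exact le_rfl
  refine rest.trans (add_le_add le_rfl ?_)
  have hw := wP_maj (t := t) (a := a) hs hcen hmass
  have hw0 : 0 ≤ wP 1 (cube3 K x) (maj K x t a s g u v X) := wP_nonneg zero_le_one _ _
  calc 6 * P * gR l * wP 1 (cube3 K x) (maj K x t a s g u v X)
      = 6 * (P * gR l) * wP 1 (cube3 K x) (maj K x t a s g u v X) := by ring
    _ ≤ _ := mul_le_mul_of_nonneg_left hw (by positivity)

/-- **The top of line (A)**: `CE1q → H927.CE1M`. -/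
theorem ce1M_of_q (H : CE1q) : H927.CE1M := by
  obtain ⟨gam, c1, d0, del, hgam, hc1, hd0, hdel, H⟩ := H (1 / 4000) (by norm_num) (by norm_num)
  set a : ℝ := 1 / 4000 with ha
  have ha0 : 0 < a := by rw [ha]; norm_num
  have ha1 : a ≤ 1 := by rw [ha]; norm_num
  set d : ℝ := min d0 1 with hd
  have hdp : 0 < d := lt_min hd0 one_pos
  have hd1 : d ≤ 1 := min_le_right _ _
  set ε : ℝ := d / 1920 with hεd
  have hε : 0 < ε := by positivity
  have hε' : ε ≤ 1 / 4 := by rw [hεd]; linarith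
  refine ⟨a, min gam (d / 480), min c1 (d / 960), ha0, le_of_eq ha, lt_min hgam (by positivity),
    lt_min hc1 (by positivity), fun c hc hcc Kt e cP L hK he hcP hL => ?_⟩
  obtain ⟨C, hC, H⟩ := H c hc (hcc.trans (min_le_left _ _)) d hdp (min_le_left _ _) Kt e cP (L + 1)
    hK he hcP (by linarith)
  set A : ℝ := 2 * cG Lam0 cP 240000 cEng ε with hA
  have hA0 : 0 ≤ A := by
    have := cG_nonneg (Λ := Lam0) (cP := cP) (K0 := 240000) (C := cEng) hcP (by norm_num)
      cEng_nonneg hε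
    positivity
  have hPos : Pos2 A ε cP := pos2_asm one_le_Lam0 genSt hε hε' hcP
  set B : ℝ := (Kt * Kt) ^ (1 / 2 - ε) * (e * e) ^ (1 / 4 + ε / 2) with hB
  have hB0 : 0 ≤ B := by
    have h3 : 0 ≤ (Kt * Kt) ^ (1 / 2 - ε) := by positivity
    have h4 : 0 ≤ (e * e) ^ (1 / 4 + ε / 2) := Real.rpow_nonneg (by positivity) _
    positivity
  have hρ1 : (2 : ℝ) ^ (-del) < 1 :=
    Real.rpow_lt_one_of_one_lt_of_neg (by norm_num) (by linarith)
  have hρ0 : (0 : ℝ) ≤ (2 : ℝ) ^ (-del) := by positivity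
  have hρ2 : 0 ≤ (1 - (2 : ℝ) ^ (-del))⁻¹ := inv_nonneg.2 (by linarith)
  set Q : ℝ := ((L + 3) ^ 2) ^ (5 / 4 : ℝ) with hQ
  have hQ0 : 0 ≤ Q := Real.rpow_nonneg (sq_nonneg _) _
  refine ⟨(C * (1 - (2 : ℝ) ^ (-del))⁻¹ + 6 * (A * B) * 1153 ^ 3 * 3) * Q, by positivity, ?_⟩
  intro t ht ht1 n ez F1 F2 F3 h1 h3 h2 o ho K hKn x V _ _ _ S g u v X hS hcen0 hXu hXv hden
  have hez : 0 ≤ ez := h2.1
  -- the larger mass
  set s : ℝ := (L + 3) ^ 2 * S with hs'
  have hs : 0 < s := by positivity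
  have hsS : √s = (L + 3) * √S := by
    rw [hs', Real.sqrt_mul (by positivity), Real.sqrt_sq (by linarith)]
  have hSs : √S ≤ √s := by
    rw [hsS]
    nlinarith [Real.sqrt_nonneg S]
  have hs54 : s ^ (5 / 4 : ℝ) = Q * S ^ (5 / 4 : ℝ) := by
    rw [hs', Real.mul_rpow (sq_nonneg _) hS.le]
  have hcen : Cen (iv K x.2.1) (iv K x.2.2) (iv K x.1) 1 √s 1
      ((L + 1) * t ^ (2 - c) * √s) g u v := by
    refine cen_mono hcen0 (Real.sqrt_nonneg _) hSs ?_
    have ht2 : 0 ≤ t ^ (2 - c) := Real.rpow_nonneg ht.le _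
    have : L * t ^ (2 - c) * √S ≤ (L + 1) * t ^ (2 - c) * √S := by gcongr; linarith
    exact this.trans (mul_le_mul_of_nonneg_left hSs (by positivity))
  have hmass : (avg (iv K x.1) fun z => avg (iv K x.2.1) fun y =>
      (maj K x t a s g u v X).1 (z, y) ^ 2) ≤ s := by
    refine maj_mass ht ht1 ha0 ha1 hS hL hs' g u v X ?_ hden
    have h := hcen0.u_en
    rwa [one_mul, Real.sq_sqrt hS.le] at h
  set U : Tri := maj K x t a s g u v X with hU
  have hq : 0 < √s := Real.sqrt_pos.2 hs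
  -- the alive sum by classes
  have main : cosA (fun k z => ¬ cst (t ^ (-d)) U K k z) o K x (comp (fun p => g p.1 p.2) u v)
      (fun k _ => F1 k) (fun k _ => F2 k) (fun k _ => F3 k) ≤
      C * (t ^ (1 + gam) * s ^ (5 / 4 : ℝ) * √ez * 8 ^ K) * (1 - (2 : ℝ) ^ (-del))⁻¹ :=
    alive_cls ht hs (by linarith) hdel (by positivity) hcen hXu hXv hmass
      fun r u' v' hr hcls => H t ht ht1 n ez F1 F2 F3 h1 h3 h2 o ho K hKn x (H677.Lab V) s r U g
        u' v' hs hr hcls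
  -- the threshold
  set l : ℝ := t ^ (-d / 4) with hl
  have hl1 : 1 ≤ l := Real.one_le_rpow_of_pos_of_le_one_of_nonpos ht ht1 (by linarith)
  have hl4 : l ^ 4 = t ^ (-d) := by
    rw [hl, ← Real.rpow_natCast (t ^ (-d / 4)) 4, ← Real.rpow_mul ht.le]
    congr 1
    push_cast
    ring
  set P : ℝ := A * prE ε (Kt * t ^ (1 - c)) (Kt * t ^ (1 - c)) e e ez with hP
  have hprE := prE_le (Kt := Kt) (e := e) (ez := ez) hK ht ht1 hc hε (by linarith)
  have hprE0 : 0 ≤ prE ε (Kt * t ^ (1 - c)) (Kt * t ^ (1 - c)) e e ez := by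
    unfold prE
    have h3 : 0 ≤ (Kt * t ^ (1 - c) * (Kt * t ^ (1 - c))) ^ (1 / 2 - ε) := by positivity
    have h4 : 0 ≤ (e * e) ^ (1 / 4 + ε / 2) := Real.rpow_nonneg (by positivity) _
    positivity
  have hP0 : 0 ≤ P := mul_nonneg hA0 hprE0
  -- the power of the gain
  have hg : gR l = 1153 ^ 3 * t ^ (d / 240) := by
    unfold gR
    rw [hl, ← Real.rpow_mul ht.le]
    congr 2
    ring
  have hg0 : 0 ≤ gR l := by rw [hg]; positivity
  have rest := dead_maj (t := t) (a := a) (X := X) (o := o) hl1 hs hP0 hcen hmass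
    (F1 := fun k _ => F1 k) (F2 := fun k _ => F2 k) (F3 := fun k _ => F3 k)
    (fun K' hK' x' a => hPos n _ _ e ez e F1 F2 F3 h1 h3 h2 o ho K' (by omega) x' a) hg0
  rw [hl4] at rest
  refine rest.trans ?_
  have e1 : t ^ (1 + min gam (d / 480)) ≥ t ^ (1 + gam) :=
    Real.rpow_le_rpow_of_exponent_ge ht ht1 (by linarith [min_le_left gam (d / 480)])
  have e2 : t ^ (1 - c - 2 * ε) * t ^ (d / 240) ≤ t ^ (1 + min gam (d / 480)) := by
    rw [← Real.rpow_add ht]
    refine Real.rpow_le_rpow_of_exponent_ge ht ht1 ?_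
    have h5 := min_le_right gam (d / 480)
    have h6 := hcc.trans (min_le_right c1 (d / 960))
    rw [hεd]
    linarith
  have e3 : P * gR l ≤ (A * B) * 1153 ^ 3 * (t ^ (1 + min gam (d / 480)) * √ez) := by
    rw [hg, hP]
    calc A * prE ε (Kt * t ^ (1 - c)) (Kt * t ^ (1 - c)) e e ez * (1153 ^ 3 * t ^ (d / 240))
        ≤ A * (B * (t ^ (1 - c - 2 * ε) * √ez)) * (1153 ^ 3 * t ^ (d / 240)) := by
          gcongr
      _ = (A * B) * 1153 ^ 3 * (t ^ (1 - c - 2 * ε) * t ^ (d / 240)) * √ez := by ring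
      _ ≤ (A * B) * 1153 ^ 3 * t ^ (1 + min gam (d / 480)) * √ez := by gcongr
      _ = _ := by ring
  have e4 : 6 * (P * gR l) * (3 * (8 ^ K * s ^ (5 / 4 : ℝ))) ≤
      6 * ((A * B) * 1153 ^ 3 * (t ^ (1 + min gam (d / 480)) * √ez)) *
        (3 * (8 ^ K * s ^ (5 / 4 : ℝ))) :=
    mul_le_mul_of_nonneg_right (mul_le_mul_of_nonneg_left e3 (by norm_num)) (by positivity)
  have e5 : C * (t ^ (1 + gam) * s ^ (5 / 4 : ℝ) * √ez * 8 ^ K) * (1 - (2 : ℝ) ^ (-del))⁻¹ ≤
      C * (t ^ (1 + min gam (d / 480)) * s ^ (5 / 4 : ℝ) * √ez * 8 ^ K) *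
        (1 - (2 : ℝ) ^ (-del))⁻¹ := by
    gcongr
  refine (add_le_add (main.trans e5) e4).trans (le_of_eq ?_)
  rw [hs54]
  ring

end

end Vale.Agent.P141.H305
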